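import Vale.Agent.P284.H383.K9.A
import Vale.Agent.P284.H213.K.S
import Mathlib.Topology.Algebra.Module.Multilinear.Topology

/-!
# P284 (helper383), upgrade K, module K9 (ExK): statements of the parts

The periods are injective (`c g = 0 → g = 1`, the general case is the quotient by the kernel), so `F` is
proper; `μ` is the volume measure of the lifted metric on `E`; `dV` is the square of the norm of
`dF₁ ∧ … ∧ dF_q`.
-/

open scoped Manifold ContDiff Topology ENNReal ComplexConjugate ComplexOrder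
open Filter Set Metric MeasureTheory

noncomputable section

namespace Vale.Agent.P284.H383.K9

open Vale.Agent.P272.K Vale.Agent.P284.H894.G Vale.Agent.P284.H894.W Vale.Agent.P284.H494
  Vale.Agent.P284.H10 Vale.Agent.P284.H224 Vale.Agent.P284.H672 Vale.Agent.P284.H608.K
  Vale.Agent.P284.H213.K

/-- the determinant as an alternating form on `ℂ^q` -/
def volq (q : ℕ) : Af q q :=
  { (Matrix.detRowAlternating (n := Fin q) (R := ℂ) : Cm q [⋀^Fin q]→ₗ[ℂ] ℂ) with
    cont := by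
      show Continuous fun v : Fin q → Cm q => (Matrix.of v).det
      exact Continuous.matrix_det continuous_id }

theorem volq_apply {q : ℕ} (v : Fin q → Cm q) : volq q v = (Matrix.of v).det := rfl

section
variable {n : ℕ} {X : Type} [TopologicalSpace X] [ChartedSpace (Cm n) X] {E : Type}
  [TopologicalSpace E] {p : E → X} {q : ℕ}

open Classical in
/-- the form `dF₁ ∧ … ∧ dF_q` in the framed charts -/
def vf (F : E → Cm q) (i : IE n p) (z : Cm n) : Af n q :=
  if z ∈ i.1.2.target then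
    (volq q).compContinuousLinearMap (fderiv ℂ (fun z => F (i.1.2.symm z)) z) else 0

/-- a framed chart at `y` -/
def ch (n : ℕ) [ChartedSpace (Cm n) X] (hp : IsCoveringMap p) (y : E) : IE n p :=
  ⟨((exists_ch (n := n) hp y univ_mem).choose, (exists_ch (n := n) hp y univ_mem).choose_spec.choose),
    (exists_ch (n := n) hp y univ_mem).choose_spec.choose_spec.1⟩

/-- the square of the norm of `dF₁ ∧ … ∧ dF_q` for the lifted metric, in the framed chart `i` -/
def den (w : Chart n X → Cm n → Matrix (Fin n) (Fin n) ℂ) (F : E → Cm q) (i : IE n p) (y : E) : ℝ :=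
  (hn (w i.1.1 (i.1.2 y)) (vf F i (i.1.2 y)) (vf F i (i.1.2 y))).re

/-- the square of the norm of `dF₁ ∧ … ∧ dF_q` for the lifted metric -/
def dV (hp : IsCoveringMap p) (w : Chart n X → Cm n → Matrix (Fin n) (Fin n) ℂ) (F : E → Cm q)
    (y : E) : ℝ := den w F (ch n hp y) y

end

/-- **(VOL)** all components of all regular fibres have the same volume `v₀` (lower bound of the volume
of tubes). -/
def VolStmt : Prop :=
  ∀ (n q : ℕ) (X : Type) [TopologicalSpace X] [T2Space X] [CompactSpace X] [ConnectedSpace X]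
    [ChartedSpace (Cm n) X] [IsManifold 𝓘(ℂ, Cm n) ω X]
    (w : Chart n X → Cm n → Matrix (Fin n) (Fin n) ℂ), IsKahler w →
    ∀ (E Γ : Type) [TopologicalSpace E] [ConnectedSpace E] [MeasurableSpace E] [BorelSpace E]
    [Group Γ] [MulAction Γ E] (p : E → X) (hG : IsGalois Γ p)
    (F : E → Cm q) (c : Γ → Cm q), Per p w F c → (∀ g, c g = 0 → g = 1) → 1 ≤ q →
    (∃ y, Reg (n := n) p F y) → ∀ (μ : Measure E), VolE p w μ →
    ∃ v₀ : ℝ≥0∞, v₀ ≠ 0 ∧ ∀ (t : Cm q) (r : ℝ), 0 < r → ball t r ⊆ RV n p F →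
      ∀ σ : Cm q → E, ContinuousOn σ (ball t r) → (∀ s ∈ ball t r, F (σ s) = s) →
      ∀ g : Cm q → ℝ≥0∞, Measurable g →
        v₀ * ∫⁻ s in ball t r, g s ≤
          ∫⁻ y in {y | F y ∈ ball t r ∧ Same F (σ (F y)) y},
            g (F y) * ENNReal.ofReal (dV hG.cov w F y) ∂μ

section
variable {n : ℕ} {X : Type} [TopologicalSpace X] [ChartedSpace (Cm n) X] {E : Type}
  [TopologicalSpace E] [MeasurableSpace E] {q : ℕ}

/-- output of the engine -/
structure HFun (n : ℕ) [ChartedSpace (Cm n) X] {p : E → X} (hp : IsCoveringMap p)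
    (w : Chart n X → Cm n → Matrix (Fin n) (Fin n) ℂ)
    (F : E → Cm q) (μ : Measure E) (h : E → ℂ) : Prop where
  loc : ∀ y, F y ∈ RV n p F → ∃ f : Cm q → ℂ, AnalyticAt ℂ f (F y) ∧ ∀ᶠ y' in 𝓝 y, h y' = f (F y')
  mass : ∃ k : ℕ, ∫⁻ y in F ⁻¹' RV n p F, ENNReal.ofReal (‖h y‖ ^ 2 * dV hp w F y) *
    ENNReal.ofReal (((1 + ‖F y‖) ^ k)⁻¹) ∂μ < ⊤

end

/-- **(H)** (helper383) the engine gives a function on the components of the regular fibres which
separates `y`, `y'` -/
def HStmt : Prop :=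
  ∀ (n q : ℕ) (X : Type) [TopologicalSpace X] [T2Space X] [CompactSpace X] [ConnectedSpace X]
    [ChartedSpace (Cm n) X] [IsManifold 𝓘(ℂ, Cm n) ω X]
    (w : Chart n X → Cm n → Matrix (Fin n) (Fin n) ℂ), IsKahler w →
    ∀ (E Γ : Type) [TopologicalSpace E] [ConnectedSpace E] [MeasurableSpace E] [BorelSpace E]
    [Group Γ] [MulAction Γ E] (p : E → X) (hG : IsGalois Γ p)
    (F : E → Cm q) (c : Γ → Cm q), Per p w F c → (∀ g, c g = 0 → g = 1) → 1 ≤ q →
    ∀ (μ : Measure E), VolE p w μ →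
    ∀ y y' : E, F y' = F y → F y ∈ RV n p F → ¬ Same F y y' →
    ∃ h : E → ℂ, HFun n hG.cov w F μ h ∧ h y ≠ h y'

/-- **(TR)** subtracting the mean over the fibre -/
def Tr9Stmt : Prop :=
  ∀ (n q : ℕ) (X : Type) [TopologicalSpace X] [T2Space X] [CompactSpace X] [ConnectedSpace X]
    [ChartedSpace (Cm n) X] [IsManifold 𝓘(ℂ, Cm n) ω X]
    (w : Chart n X → Cm n → Matrix (Fin n) (Fin n) ℂ), IsKahler w →
    ∀ (E Γ : Type) [TopologicalSpace E] [ConnectedSpace E] [MeasurableSpace E] [BorelSpace E]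
    [Group Γ] [MulAction Γ E] (p : E → X) (hG : IsGalois Γ p)
    (F : E → Cm q) (c : Γ → Cm q), Per p w F c → (∀ g, c g = 0 → g = 1) → 1 ≤ q →
    ∀ (μ : Measure E), VolE p w μ →
    ∀ y y' : E, F y' = F y → F y ∈ RV n p F →
    ∀ h : E → ℂ, HFun n hG.cov w F μ h → h y ≠ h y' → ∃ h' : E → ℂ, ExFun n Γ p F c h'

/-- **(Q)** reduction to injective periods -/
def QuoStmt : Prop :=
  (∀ (n q : ℕ) (X : Type) [TopologicalSpace X] [T2Space X] [CompactSpace X] [ConnectedSpace X]
    [ChartedSpace (Cm n) X] [IsManifold 𝓘(ℂ, Cm n) ω X]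
    (w : Chart n X → Cm n → Matrix (Fin n) (Fin n) ℂ), IsKahler w →
    ∀ (E Γ : Type) [TopologicalSpace E] [ConnectedSpace E]
    [Group Γ] [MulAction Γ E] (p : E → X), IsGalois Γ p →
    ∀ (F : E → Cm q) (c : Γ → Cm q), Per p w F c → (∀ g, c g = 0 → g = 1) → 1 ≤ q →
    ∀ y y' : E, F y' = F y → F y ∈ RV n p F → ¬ Same F y y' →
    ∃ h : E → ℂ, ExFun n Γ p F c h) → ExK

end Vale.Agent.P284.H383.K9
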