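import Vale.Agent.P284.H608.K.Spec
import Vale.Agent.P284.H672.TX

/-!
# P284 (helper383), upgrade K, module K9 (ExK): the covering `E` as a Kähler manifold with a weight `ψ ∘ F`
-/

open scoped Manifold ContDiff Topology ENNReal ComplexConjugate ComplexOrder
open Filter Set Metric MeasureTheory

noncomputable section

namespace Vale.Agent.P284.H383.K9

open Vale.Agent.P272.K Vale.Agent.P284.H894.G Vale.Agent.P284.H894.W Vale.Agent.P284.H494
  Vale.Agent.P284.H10 Vale.Agent.P284.H224 Vale.Agent.P284.H672 Vale.Agent.P284.H608.K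

section
variable {n : ℕ} {X : Type} [TopologicalSpace X] [ChartedSpace (Cm n) X] {E : Type}
  [TopologicalSpace E]

/-- `μ` is the volume measure on `E` of the metric lifted from `w` -/
def VolE [MeasurableSpace E] (p : E → X) (w : Chart n X → Cm n → Matrix (Fin n) (Fin n) ℂ)
    (μ : Measure E) : Prop :=
  ∀ (e : Chart n X) (ε : OpenPartialHomeomorph E (Cm n)), IsCh p e ε →
    ∀ f : E → ℝ≥0∞, Measurable f → (∀ x, x ∉ ε.source → f x = 0) →
      ∫⁻ x, f x ∂μ = ∫⁻ z in ε.target, f (ε.symm z) * ENNReal.ofReal ((w e z).det.re)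

variable {p : E → X} {w : Chart n X → Cm n → Matrix (Fin n) (Fin n) ℂ} {q : ℕ} {F : E → Cm q}

theorem ch_at {e : Chart n X} {ε : OpenPartialHomeomorph E (Cm n)} (h : IsCh p e ε) {z : Cm n}
    (hz : z ∈ ε.target) : At e (p (ε.symm z)) ∧ e (p (ε.symm z)) = z := by
  have h1 := ε.map_target hz
  exact ⟨⟨h.mem, h.src _ h1⟩, by rw [← h.eq _ h1, ε.right_inv hz]⟩

theorem ch_symm {e : Chart n X} {ε : OpenPartialHomeomorph E (Cm n)} (h : IsCh p e ε) {z : Cm n}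
    (hz : z ∈ ε.target) : p (ε.symm z) = e.symm z := by
  obtain ⟨h1, h2⟩ := ch_at h hz
  conv_rhs => rw [← h2, e.left_inv h1.2]

theorem ch_mem {e : Chart n X} {ε : OpenPartialHomeomorph E (Cm n)} (h : IsCh p e ε) {z : Cm n}
    (hz : z ∈ ε.target) : z ∈ e.target := by
  obtain ⟨h1, h2⟩ := ch_at h hz
  rw [← h2]
  exact e.map_source h1.2

/-- change of charts upstairs and downstairs -/
theorem ch_trans {e e' : Chart n X} {ε ε' : OpenPartialHomeomorph E (Cm n)} (h : IsCh p e ε)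
    (h' : IsCh p e' ε') {z : Cm n} (hz : z ∈ ε.target) (hz' : ε.symm z ∈ ε'.source) :
    (fun z => ε' (ε.symm z)) =ᶠ[𝓝 z] fun z => e' (e.symm z) := by
  have h1 : ∀ᶠ x in 𝓝 z, x ∈ ε.target := ε.open_target.mem_nhds hz
  have h2 : ∀ᶠ x in 𝓝 z, ε.symm x ∈ ε'.source :=
    (ε.continuousAt_symm hz).eventually (ε'.open_source.mem_nhds hz')
  filter_upwards [h1, h2] with x hx hx'
  rw [h'.eq _ hx', ch_symm h hx]

theorem ch_jac {e e' : Chart n X} {ε ε' : OpenPartialHomeomorph E (Cm n)} (h : IsCh p e ε)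
    (h' : IsCh p e' ε') {y : E} (hy : y ∈ ε.source) (hy' : y ∈ ε'.source) :
    jacM ε ε' y = jacM e e' (p y) := by
  have h1 : ε y = e (p y) := h.eq y hy
  have h2 := ch_trans h h' (ε.map_source hy) (by rw [ε.left_inv hy]; exact hy')
  rw [h1] at h2
  unfold jacM
  rw [h1]
  ext a b
  simp only [Matrix.of_apply, dz]
  have h3 : (fun z => ε' (ε.symm z) a) =ᶠ[𝓝 (e (p y))] fun z => e' (e.symm z) a := by
    filter_upwards [h2] with z hz
    rw [hz]
  rw [h3.fderiv_eq]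

/-- framed charts of `E` -/
abbrev IE (n : ℕ) {X : Type} [TopologicalSpace X] [ChartedSpace (Cm n) X] {E : Type}
    [TopologicalSpace E] (p : E → X) : Type :=
  {a : Chart n X × OpenPartialHomeomorph E (Cm n) // IsCh p a.1 a.2}

variable [IsManifold 𝓘(ℂ, Cm n) ω X]

theorem ch_hol {e e' : Chart n X} {ε ε' : OpenPartialHomeomorph E (Cm n)} (h : IsCh p e ε)
    (h' : IsCh p e' ε') {z : Cm n} (hz : z ∈ ε.target) (hz' : ε.symm z ∈ ε'.source) :
    AnalyticAt ℂ (fun z => ε' (ε.symm z)) z := by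
  refine AnalyticAt.congr ?_ (ch_trans h h' hz hz').symm
  obtain ⟨h1, h2⟩ := ch_at h hz
  have h3 : At e' (p (ε.symm z)) := ⟨h'.mem, h'.src _ hz'⟩
  have h4 := (transition h1 h3).analyticAt
  rwa [h2] at h4

theorem F_smooth (hB : ∃ B, HolB p w F B) {e : Chart n X}
    {ε : OpenPartialHomeomorph E (Cm n)} (h : IsCh p e ε) {z : Cm n} (hz : z ∈ ε.target) :
    AnalyticAt ℂ (fun z => F (ε.symm z)) z := by
  obtain ⟨B, hB⟩ := hB
  exact Vale.Agent.P268.analyticOnNhd_of_differentiableOn ε.open_target (h.diff hB) z hz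

/-- **the Kähler manifold `E`**, trivial line bundle with weight `ψ ∘ F` -/
def kE [MeasurableSpace E] (hp : IsCoveringMap p) (hw : IsKahler w) (hB : ∃ B, HolB p w F B)
    (ψ : Cm q → ℝ) (hψ : ContDiff ℝ ∞ ψ) (μ : Measure E) (hμ : VolE p w μ) : KA n E where
  I := IE n p
  e i := i.1.2
  w i := w i.1.1
  φ i z := ψ (F (i.1.2.symm z))
  a _ _ _ := 1
  μ := μ
  cover y := by
    obtain ⟨e, ε, hε, hy, -, -⟩ := exists_ch (n := n) hp y univ_mem
    exact ⟨⟨(e, ε), hε⟩, hy⟩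
  wsm := by
    rintro ⟨⟨e, ε⟩, h⟩ z hz j k
    obtain ⟨h1, h2⟩ := ch_at h hz
    have := hw.smooth e _ h1 j k
    rwa [h2] at this
  wpos := by
    rintro ⟨⟨e, ε⟩, h⟩ z hz
    obtain ⟨h1, h2⟩ := ch_at h hz
    have := hw.posDef e _ h1
    rwa [h2] at this
  wcl := by
    rintro ⟨⟨e, ε⟩, h⟩ z hz j k l
    obtain ⟨h1, h2⟩ := ch_at h hz
    have := hw.closed e _ h1 j k l
    rwa [h2] at this
  φsm := by
    rintro ⟨⟨e, ε⟩, h⟩ z hz
    have h1 : ContDiffAt ℝ ∞ (fun z => F (ε.symm z)) z :=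
      ((F_smooth hB h hz).contDiffAt (n := ∞)).restrict_scalars ℝ
    exact hψ.contDiffAt.comp z h1
  hol := by
    rintro ⟨⟨e, ε⟩, h⟩ ⟨⟨e', ε'⟩, h'⟩ z hz hz'
    exact ch_hol h h' hz hz'
  wch := by
    rintro ⟨⟨e, ε⟩, h⟩ ⟨⟨e', ε'⟩, h'⟩ y hy hy'
    show w e (ε y) = (jacM ε ε' y).transpose * w e' (ε' y) *
      (jacM ε ε' y).map (starRingEnd ℂ)
    rw [ch_jac h h' hy hy', h.eq y hy, h'.eq y hy']
    exact hw.change e e' (p y) ⟨h.mem, h.src y hy⟩ ⟨h'.mem, h'.src y hy'⟩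
  ahol _ _ _ _ _ := analyticAt_const
  coc _ _ _ _ _ _ _ := (one_mul 1).symm
  aself _ _ _ := rfl
  φch := by
    rintro ⟨⟨e, ε⟩, h⟩ ⟨⟨e', ε'⟩, h'⟩ y hy hy'
    show Real.exp (-ψ (F (ε.symm (ε y)))) * ‖(1 : ℂ)‖ ^ 2 = Real.exp (-ψ (F (ε'.symm (ε' y))))
    rw [ε.left_inv hy, ε'.left_inv hy']
    simp
  hμ := by
    rintro ⟨⟨e, ε⟩, h⟩ f hf h0
    exact hμ e ε h f hf h0

end

end Vale.Agent.P284.H383.K9
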