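import Vale.Agent.P284.H383.K9.Spec
import Vale.Agent.P272.K.QN.H705.PullLoc
import Mathlib.Analysis.Calculus.DifferentialForm.Basic

/-!
# P284 (helper383), K9: local calculus of the form `dF₁ ∧ … ∧ dF_q`
-/

open scoped Manifold ContDiff Topology ENNReal ComplexConjugate ComplexOrder
open Filter Set Metric MeasureTheory

noncomputable section

namespace Vale.Agent.P284.H383.K9

open Vale.Agent.P272.K Vale.Agent.P284.H672 Vale.Agent.P284.H608.K
open Vale.Agent.P272.K.QN (jm dz_comp_F dzb_comp_F jm_apply)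

variable {n q : ℕ}

/-- `f^* vol` -/
def VV (f : Cm n → Cm q) (z : Cm n) : Af n q := (volq q).compContinuousLinearMap (fderiv ℂ f z)

theorem VV_mnr (f : Cm n → Cm q) (z : Cm n) (ξ : Fin q → Cm n) : VV f z ξ = mnr f ξ z := by
  show (Matrix.of fun j => fderiv ℂ f z (ξ j)).det = (Matrix.of fun i j => fderiv ℂ f z (ξ j) i).det
  rw [← Matrix.det_transpose]
  rfl

theorem VV_diff {f : Cm n → Cm q} {z : Cm n} (hf : AnalyticAt ℂ f z) :
    DifferentiableAt ℂ (VV f) z := by
  have h1 : HasFDerivAt (fderiv ℂ f) (fderiv ℂ (fderiv ℂ f) z) z := hf.fderiv.differentiableAt.hasFDerivAt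
  have h2 : HasFDerivAt (fun _ : Cm n => volq q) (0 : Cm n →L[ℂ] Af q q) z := hasFDerivAt_const _ _
  exact (h2.continuousAlternatingMapCompContinuousLinearMap h1).differentiableAt

theorem VV_analytic {f : Cm n → Cm q} {z : Cm n} (hf : AnalyticAt ℂ f z) :
    AnalyticAt ℂ (VV f) z := by
  obtain ⟨r, hr, hb⟩ := Metric.eventually_nhds_iff_ball.1 hf.eventually_analyticAt
  exact Vale.Agent.P268.analyticOnNhd_of_differentiableOn isOpen_ball
    (fun x hx => (VV_diff (hb x hx)).differentiableWithinAt) z (mem_ball_self hr)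

theorem VV_congr {f g : Cm n → Cm q} {z : Cm n} (h : f =ᶠ[𝓝 z] g) : VV f z = VV g z := by
  rw [VV, VV, h.fderiv_eq]

/-- a form of degree `> q` on `ℂ^q` vanishes -/
theorem top_zero (A : Af q (q + 1)) : A = 0 := by
  ext v
  have h1 : ¬ LinearIndependent ℂ v := by
    intro h
    have := h.fintype_card_le_finrank
    simp at this
  exact (A.toAlternatingMap).map_linearDependent v h1

/-- `dz_c ∧ f^* vol` contracted with a covector in the span of `dF` -/
theorem wdz_VV (f : Cm n → Cm q) (z : Cm n) (l : Fin q → ℂ) :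
    ∑ c, (∑ k, l k * (fderiv ℂ f z (Pi.single c 1)) k) • wdz c (VV f z) = 0 := by
  have key : ∑ c, (∑ k, l k * (fderiv ℂ f z (Pi.single c 1)) k) • wdz c (VV f z) =
      (ContinuousAlternatingMap.alternatizeUncurryFin
        ((∑ k, l k • (ContinuousLinearMap.proj (R := ℂ) (φ := fun _ : Fin q => ℂ) k)).smulRight
          (volq q))).compContinuousLinearMap (fderiv ℂ f z) := by
    ext v
    have h1 : ∀ x : Cm n, ∑ c, (∑ k, l k * (fderiv ℂ f z (Pi.single c 1)) k) * x c =
        ∑ k, l k * (fderiv ℂ f z x) k := by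
      intro x
      have hx : x = ∑ c, x c • (Pi.single c (1 : ℂ) : Cm n) := by
        funext j
        simp [Finset.sum_apply, Pi.single_apply]
      conv_rhs => rw [hx]
      simp only [map_sum, map_smul, Finset.sum_apply, Pi.smul_apply, smul_eq_mul, Finset.mul_sum,
        Finset.sum_mul]
      rw [Finset.sum_comm]
      refine Finset.sum_congr rfl fun k _ => Finset.sum_congr rfl fun c _ => ?_
      ring
    simp only [wdz, ContinuousAlternatingMap.sum_apply, ContinuousAlternatingMap.smul_apply,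
      ContinuousAlternatingMap.alternatizeUncurryFin_apply,
      ContinuousAlternatingMap.compContinuousLinearMap_apply, ContinuousLinearMap.smulRight_apply,
      ContinuousLinearMap.proj_apply, smul_eq_mul]
    simp only [Finset.mul_sum]
    rw [Finset.sum_comm]
    refine Finset.sum_congr rfl fun i _ => ?_
    have h2 := h1 (v i)
    simp only [sum_apply, smul_apply,
      ContinuousLinearMap.proj_apply, smul_eq_mul, Function.comp_apply]
    rw [← h2]
    have h3 : ∀ c, (∑ k, l k * (fderiv ℂ f z (Pi.single c 1)) k) *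
        ((-1) ^ (i : ℕ) • (v i c * (VV f z) (Fin.removeNth i v))) =
        ((∑ k, l k * (fderiv ℂ f z (Pi.single c 1)) k) * v i c) *
          ((-1) ^ (i : ℕ) • (VV f z) (Fin.removeNth i v)) := by
      intro c
      simp only [Int.reduceNeg, zsmul_eq_mul]
      ring
    rw [Finset.sum_congr rfl fun c _ => h3 c, ← Finset.sum_mul]
    have h4 : (VV f z) (Fin.removeNth i v) = (volq q) (Fin.removeNth i (⇑(fderiv ℂ f z) ∘ v)) := rfl
    rw [h4]
    simp only [Int.reduceNeg, zsmul_eq_mul]
    ring
  rw [key, top_zero (ContinuousAlternatingMap.alternatizeUncurryFin _)]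
  rfl

theorem dzV_holo {V : Type} [NormedAddCommGroup V] [NormedSpace ℂ V] {η : Cm n → V} {z : Cm n}
    (hη : DifferentiableAt ℂ η z) (a : Fin n) : dzV a η z = fderiv ℂ η z (Pi.single a 1) := by
  have h1 : ∀ v, fderiv ℝ η z v = fderiv ℂ η z v := fun v => by
    rw [(hη.hasFDerivAt.restrictScalars ℝ).fderiv]; rfl
  have hs : (Pi.single a Complex.I : Cm n) = Complex.I • Pi.single a 1 := by
    rw [← Pi.single_smul]; simp
  rw [dzV, h1, h1, hs, map_smul, smul_smul, Complex.I_mul_I, neg_one_smul, sub_neg_eq_add,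
    ← two_smul ℂ, smul_smul]
  norm_num

theorem dbV_holo {V : Type} [NormedAddCommGroup V] [NormedSpace ℂ V] {η : Cm n → V} {z : Cm n}
    (hη : DifferentiableAt ℂ η z) (a : Fin n) : dbV a η z = 0 := by
  have h1 : ∀ v, fderiv ℝ η z v = fderiv ℂ η z v := fun v => by
    rw [(hη.hasFDerivAt.restrictScalars ℝ).fderiv]; rfl
  have hs : (Pi.single a Complex.I : Cm n) = Complex.I • Pi.single a 1 := by
    rw [← Pi.single_smul]; simp
  rw [dbV, h1, h1, hs, map_smul, smul_smul, Complex.I_mul_I, neg_one_smul, add_neg_cancel,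
    smul_zero]

theorem dzV_smul {V : Type} [NormedAddCommGroup V] [NormedSpace ℂ V] {g : Cm n → ℂ}
    {η : Cm n → V} {z : Cm n} (hg : DifferentiableAt ℝ g z) (hη : DifferentiableAt ℝ η z)
    (a : Fin n) : dzV a (fun z => g z • η z) z = dz a g z • η z + g z • dzV a η z := by
  rw [dzV, fderiv_fun_smul hg hη, dzV, dz]
  simp only [add_apply, smul_apply, ContinuousLinearMap.smulRight_apply]
  module

theorem dbV_smul {V : Type} [NormedAddCommGroup V] [NormedSpace ℂ V] {g : Cm n → ℂ}
    {η : Cm n → V} {z : Cm n} (hg : DifferentiableAt ℝ g z) (hη : DifferentiableAt ℝ η z)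
    (a : Fin n) : dbV a (fun z => g z • η z) z = dzb a g z • η z + g z • dbV a η z := by
  rw [dbV, fderiv_fun_smul hg hη, dbV, dzb]
  simp only [add_apply, smul_apply, ContinuousLinearMap.smulRight_apply]
  module

theorem sum_proj_smul {V : Type} [NormedAddCommGroup V] [NormedSpace ℂ V] (L : Cm n →L[ℂ] V) :
    ∑ a, (ContinuousLinearMap.proj (R := ℂ) (φ := fun _ : Fin n => ℂ) a).smulRight
      (L (Pi.single a 1)) = L := by
  ext x
  simp only [sum_apply, ContinuousLinearMap.smulRight_apply, ContinuousLinearMap.proj_apply]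
  have hx : x = ∑ c, x c • (Pi.single c (1 : ℂ) : Cm n) := by
    funext j
    simp [Finset.sum_apply, Pi.single_apply]
  conv_rhs => rw [hx, map_sum]
  simp only [map_smul]

/-- `d (f^* vol) = 0` -/
theorem ext_VV {f : Cm n → Cm q} {z : Cm n} (hf : AnalyticAt ℂ f z) :
    ContinuousAlternatingMap.alternatizeUncurryFin (fderiv ℂ (VV f) z) = 0 := by
  have h0 : DifferentiableAt ℂ (fun _ : Cm q => volq q) (f z) := differentiableAt_const _
  have h1 := extDeriv_pullback (r := ω) h0 hf.contDiffAt (by simp)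
  have h2 : extDeriv (fun _ : Cm q => volq q) (f z) = 0 := top_zero _
  rw [h2] at h1
  exact h1

/-- the Chern derivative of `G f^* vol` vanishes if `∂G` and `∂φ` are in the span of `dF` -/
theorem dh_VV {f : Cm n → Cm q} {z : Cm n} (hf : AnalyticAt ℂ f z) {G : Cm n → ℂ}
    (hG : DifferentiableAt ℝ G z) {φ : Cm n → ℝ} (l m : Fin q → ℂ)
    (hl : ∀ a, dz a G z = ∑ k, l k * (fderiv ℂ f z (Pi.single a 1)) k)
    (hm : ∀ a, dz a (fun y => (φ y : ℂ)) z = ∑ k, m k * (fderiv ℂ f z (Pi.single a 1)) k) :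
    dhL φ (fun z => G z • VV f z) z = 0 := by
  have hV := VV_diff hf
  have h1 : ∀ a, dzV a (fun z => G z • VV f z) z - dz a (fun y => (φ y : ℂ)) z • (G z • VV f z) =
      (∑ k, (l k - G z * m k) * (fderiv ℂ f z (Pi.single a 1)) k) • VV f z +
        G z • fderiv ℂ (VV f) z (Pi.single a 1) := by
    intro a
    rw [dzV_smul hG (hV.restrictScalars ℝ), dzV_holo hV, hl, hm]
    simp only [sub_mul, Finset.sum_sub_distrib, mul_assoc, ← Finset.mul_sum]
    module
  unfold dhL
  simp only [h1]
  have h2 : ∑ a, (ContinuousLinearMap.proj (R := ℂ) (φ := fun _ : Fin n => ℂ) a).smulRight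
      ((∑ k, (l k - G z * m k) * (fderiv ℂ f z (Pi.single a 1)) k) • VV f z +
        G z • fderiv ℂ (VV f) z (Pi.single a 1)) =
      (∑ a, (∑ k, (l k - G z * m k) * (fderiv ℂ f z (Pi.single a 1)) k) •
        (ContinuousLinearMap.proj (R := ℂ) (φ := fun _ : Fin n => ℂ) a).smulRight (VV f z)) +
      G z • fderiv ℂ (VV f) z := by
    conv_rhs => rw [← sum_proj_smul (fderiv ℂ (VV f) z)]
    rw [Finset.smul_sum, ← Finset.sum_add_distrib]
    refine Finset.sum_congr rfl fun a _ => ContinuousLinearMap.ext fun x => ?_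
    simp only [ContinuousLinearMap.smulRight_apply, add_apply, smul_apply]
    module
  rw [h2]
  have h3 := wdz_VV f z (fun k => l k - G z * m k)
  rw [ContinuousAlternatingMap.alternatizeUncurryFin_add,
    ContinuousAlternatingMap.alternatizeUncurryFin_smul, ext_VV hf, smul_zero, add_zero]
  rw [← h3]
  simp only [← ContinuousAlternatingMap.alternatizeUncurryFinCLM_apply, map_sum, map_smul]
  rfl

end Vale.Agent.P284.H383.K9
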