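import Vale.Agent.P284.H383.K9.B
import Vale.Agent.P284.H366.K.Piece

/-!
# P284 (helper383), K9: the forms `g dF₁ ∧ … ∧ dF_q`, `g` locally a smooth function of `F`
-/

open scoped Manifold ContDiff Topology ENNReal ComplexConjugate ComplexOrder
open Filter Set Metric MeasureTheory

noncomputable section

namespace Vale.Agent.P284.H383.K9

open Vale.Agent.P272.K Vale.Agent.P284.H894.G Vale.Agent.P284.H894.W Vale.Agent.P284.H494
  Vale.Agent.P284.H10 Vale.Agent.P284.H224 Vale.Agent.P284.H672 Vale.Agent.P284.H608.K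
open Vale.Agent.P272.K.QN (jm dz_comp_F dzb_comp_F jm_apply)

section
variable {n : ℕ} {X : Type} [TopologicalSpace X] [ChartedSpace (Cm n) X] {E : Type}
  [TopologicalSpace E] {p : E → X} {w : Chart n X → Cm n → Matrix (Fin n) (Fin n) ℂ} {q : ℕ}
  {F : E → Cm q}

theorem vf_eq (i : IE n p) {z : Cm n} (hz : z ∈ i.1.2.target) :
    vf F i z = VV (fun z => F (i.1.2.symm z)) z := by
  rw [vf, if_pos hz]; rfl

theorem vf_ev (i : IE n p) {z : Cm n} (hz : z ∈ i.1.2.target) :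
    vf F i =ᶠ[𝓝 z] VV (fun z => F (i.1.2.symm z)) := by
  filter_upwards [i.1.2.open_target.mem_nhds hz] with x hx using vf_eq i hx

/-- `g` is locally a smooth function of `F` -/
def LocF (F : E → Cm q) (g : E → ℝ) : Prop :=
  ∀ y, ∃ χ : Cm q → ℝ, ContDiffAt ℝ ∞ χ (F y) ∧ g =ᶠ[𝓝 y] fun y' => χ (F y')

/-- the form `g dF₁ ∧ … ∧ dF_q` -/
def s0 (F : E → Cm q) (g : E → ℝ) (i : IE n p) (z : Cm n) : Af n q :=
  ((g (i.1.2.symm z) : ℝ) : ℂ) • vf F i z

theorem s0_off (g : E → ℝ) (i : IE n p) {z : Cm n} (hz : z ∉ i.1.2.target) : s0 F g i z = 0 := by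
  have h : vf F i z = 0 := if_neg hz
  unfold s0
  rw [h]
  exact Vale.Agent.P284.H366.K.smz _

variable [IsManifold 𝓘(ℂ, Cm n) ω X]

omit [IsManifold 𝓘(ℂ, Cm n) ω X] in
theorem F_an (hB : ∃ B, HolB p w F B) (i : IE n p) {z : Cm n} (hz : z ∈ i.1.2.target) :
    AnalyticAt ℂ (fun z => F (i.1.2.symm z)) z := by
  obtain ⟨B, hB⟩ := hB
  exact Vale.Agent.P268.analyticOnNhd_of_differentiableOn i.1.2.open_target (i.2.diff hB) z hz

omit [IsManifold 𝓘(ℂ, Cm n) ω X] in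
theorem vf_an (hB : ∃ B, HolB p w F B) (i : IE n p) {z : Cm n} (hz : z ∈ i.1.2.target) :
    AnalyticAt ℂ (vf F i) z :=
  (VV_analytic (F_an hB i hz)).congr (vf_ev i hz).symm

theorem vf_change (hB : ∃ B, HolB p w F B) (i j : IE n p) {x : E} (hi : x ∈ i.1.2.source)
    (hj : x ∈ j.1.2.source) : vf F i (i.1.2 x) = (vf F j (j.1.2 x)).compContinuousLinearMap
      (fderiv ℂ (fun z => j.1.2 (i.1.2.symm z)) (i.1.2 x)) := by
  have hzi := i.1.2.map_source hi
  have hzj := j.1.2.map_source hj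
  have hx : i.1.2.symm (i.1.2 x) = x := i.1.2.left_inv hi
  rw [vf_eq i hzi, vf_eq j hzj]
  set τ : Cm n → Cm n := fun z => j.1.2 (i.1.2.symm z) with hτ
  set f : Cm n → Cm q := fun z => F (j.1.2.symm z) with hf
  have hτx : τ (i.1.2 x) = j.1.2 x := by rw [hτ]; simp only [hx]
  have h1 : (fun z => F (i.1.2.symm z)) =ᶠ[𝓝 (i.1.2 x)] f ∘ τ := by
    have h2 : ∀ᶠ z in 𝓝 (i.1.2 x), i.1.2.symm z ∈ j.1.2.source :=
      (i.1.2.continuousAt_symm hzi).eventually (j.1.2.open_source.mem_nhds (by rw [hx]; exact hj))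
    filter_upwards [h2] with z hz
    show F (i.1.2.symm z) = F (j.1.2.symm (j.1.2 (i.1.2.symm z)))
    rw [j.1.2.left_inv hz]
  have h3 : DifferentiableAt ℂ τ (i.1.2 x) :=
    (ch_hol i.2 j.2 hzi (by rw [hx]; exact hj)).differentiableAt
  have h4 : DifferentiableAt ℂ f (τ (i.1.2 x)) := by
    rw [hτx]
    exact (F_an hB j hzj).differentiableAt
  rw [VV_congr h1, VV, VV, fderiv_comp _ h4 h3, hτx]
  rfl

variable [MeasurableSpace E] (hp : IsCoveringMap p) (hw : IsKahler w) (hB : ∃ B, HolB p w F B)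
  (ψ : Cm q → ℝ) (hψ : ContDiff ℝ ∞ ψ) (μ : Measure E) (hμ : VolE p w μ)

theorem s0_form (g : E → ℝ) : (kE hp hw hB ψ hψ μ hμ).IsForm (s0 F g) where
  change i j x hi hj := by
    show s0 F g i (i.1.2 x) = (1 : ℂ) • (s0 F g j (j.1.2 x)).compContinuousLinearMap
      (fderiv ℂ (fun z => j.1.2 (i.1.2.symm z)) (i.1.2 x))
    have hi' : x ∈ i.1.2.source := hi
    have hj' : x ∈ j.1.2.source := hj
    rw [one_smul]
    unfold s0
    rw [vf_change hB i j hi' hj', i.1.2.left_inv hi', j.1.2.left_inv hj']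
    rfl
  off i z hz := s0_off g i hz

omit [IsManifold 𝓘(ℂ, Cm n) ω X] [MeasurableSpace E] in
/-- `g` in a chart -/
theorem locF_chart {g : E → ℝ} (hg : LocF F g) (i : IE n p) {z : Cm n} (hz : z ∈ i.1.2.target) :
    ∃ χ : Cm q → ℝ, ContDiffAt ℝ ∞ χ (F (i.1.2.symm z)) ∧
      (fun z => g (i.1.2.symm z)) =ᶠ[𝓝 z] fun z => χ (F (i.1.2.symm z)) := by
  obtain ⟨χ, h1, h2⟩ := hg (i.1.2.symm z)
  exact ⟨χ, h1, (i.1.2.continuousAt_symm hz).eventually h2⟩

theorem s0_smooth {g : E → ℝ} (hg : LocF F g) : (kE hp hw hB ψ hψ μ hμ).Smooth (s0 F g) := by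
  intro i z hz
  have hz' : z ∈ i.1.2.target := hz
  obtain ⟨χ, h1, h2⟩ := locF_chart hg i hz'
  have h3 : ContDiffAt ℝ ∞ (fun z => F (i.1.2.symm z)) z :=
    ((F_an hB i hz').contDiffAt (n := ∞)).restrict_scalars ℝ
  have h4 : ContDiffAt ℝ ∞ (fun z => ((g (i.1.2.symm z) : ℝ) : ℂ)) z :=
    (Complex.ofRealCLM.contDiff.contDiffAt.comp z ((h1.comp z h3).congr_of_eventuallyEq h2))
  have h5 : ContDiffAt ℝ ∞ (vf F i) z := ((vf_an hB i hz').contDiffAt (n := ∞)).restrict_scalars ℝ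
  exact h4.smul h5

theorem s0_dh {g : E → ℝ} (hg : LocF F g) : (kE hp hw hB ψ hψ μ hμ).dh (s0 F g) = 0 := by
  funext i z
  by_cases hz : z ∈ i.1.2.target
  swap
  · exact if_neg hz
  refine (if_pos hz).trans ?_
  show dhL (fun z => ψ (F (i.1.2.symm z))) (s0 F g i) z = 0
  obtain ⟨χ, h1, h2⟩ := locF_chart hg i hz
  set f : Cm n → Cm q := fun z => F (i.1.2.symm z) with hf
  have hfa : AnalyticAt ℂ f z := F_an hB i hz
  have h3 : s0 F g i =ᶠ[𝓝 z] fun z => ((χ (f z) : ℝ) : ℂ) • VV f z := by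
    filter_upwards [h2, vf_ev i hz] with x hx hx'
    show ((g (i.1.2.symm x) : ℝ) : ℂ) • vf F i x = _
    rw [hx', show g (i.1.2.symm x) = χ (f x) from hx]
  have h4 : DifferentiableAt ℝ (fun t => ((χ t : ℝ) : ℂ)) (f z) :=
    (Complex.ofRealCLM.contDiff.contDiffAt.comp (f z) h1).differentiableAt (by simp)
  have h5 : DifferentiableAt ℝ (fun t => ((ψ t : ℝ) : ℂ)) (f z) :=
    (Complex.ofRealCLM.contDiff.contDiffAt.comp (f z) hψ.contDiffAt).differentiableAt (by simp)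
  have h6 := dh_VV hfa (G := fun z => ((χ (f z) : ℝ) : ℂ))
    (h4.comp z (hfa.differentiableAt.restrictScalars ℝ)) (φ := fun z => ψ (f z))
    (fun k => dz k (fun t => ((χ t : ℝ) : ℂ)) (f z)) (fun k => dz k (fun t => ((ψ t : ℝ) : ℂ)) (f z))
    (fun a => by
      rw [dz_comp_F (f := fun t => ((χ t : ℝ) : ℂ)) (F := f) h4 hfa.differentiableAt]
      exact Finset.sum_congr rfl fun k _ => by rw [jm_apply hfa.differentiableAt])
    (fun a => by
      rw [dz_comp_F (f := fun t => ((ψ t : ℝ) : ℂ)) (F := f) h5 hfa.differentiableAt]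
      exact Finset.sum_congr rfl fun k _ => by rw [jm_apply hfa.differentiableAt])
  rw [← h6]
  unfold dhL dzV
  rw [h3.fderiv_eq, h3.eq_of_nhds]

end

end Vale.Agent.P284.H383.K9
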