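import Vale.Agent.P284.H383.K9.T
import Vale.Agent.P284.H752.K1
import Vale.Agent.P284.H451.K1b
import Vale.Agent.P284.H573.K9.Psh

/-!
# P284 (helper383), K9: `S s₀` and the pairing with test forms, pointwise
-/

open scoped Manifold ContDiff Topology ENNReal ComplexConjugate ComplexOrder
open Filter Set Metric MeasureTheory

noncomputable section

namespace Vale.Agent.P284.H383.K9

open Vale.Agent.P272.K Vale.Agent.P284.H894.G Vale.Agent.P284.H894.W Vale.Agent.P284.H494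
  Vale.Agent.P284.H10 Vale.Agent.P284.H224 Vale.Agent.P284.H672 Vale.Agent.P284.H608.K
  Vale.Agent.P284.H366.K Vale.Agent.P284.H573.K9
open Vale.Agent.P272.K.QN (jm dz_comp_F dzb_comp_F jm_apply)

theorem k1 : K1Stmt := Vale.Agent.P284.H752.k1Stmt
theorem k1b : K1bStmt := Vale.Agent.P284.H451.K1.k1bStmt

section algebra
variable {n r : ℕ} {w : Matrix (Fin n) (Fin n) ℂ}

theorem Lam_smul (θ : Fin n → ℂ) (σ : Af n (r + 1)) : Lam w (fun b => conj (θ b) • σ) =
    ∑ b, conj (θ b) • ∑ a, w⁻¹ b a • σ.curryLeft (Pi.single a 1) := by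
  unfold Lam
  rw [Finset.sum_comm]
  refine Finset.sum_congr rfl fun b _ => ?_
  rw [Finset.smul_sum]
  refine Finset.sum_congr rfl fun a _ => ?_
  have h : (conj (θ b) • σ).curryLeft (Pi.single a 1) =
      conj (θ b) • σ.curryLeft (Pi.single a 1) := rfl
  rw [h, smul_comm]

theorem hn_lam (hw : w.PosDef) (θ : Fin n → ℂ) (τ : Af n r) (σ : Af n (r + 1)) :
    hn w τ (Lam w fun b => conj (θ b) • σ) = hn w (∑ b, θ b • wdz b τ) σ := by
  rw [Lam_smul, hn_sum_right, hn_sum_left]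
  refine Finset.sum_congr rfl fun b _ => ?_
  rw [hn_smul_right, hn_smul_left, Complex.conj_conj, k1b.wadj n r w hw b τ σ]

/-- Cauchy-Schwarz -/
theorem hn_cs {p : ℕ} (hw : w.PosDef) (A B : Af n p) :
    ‖hn w A B‖ ^ 2 ≤ (hn w A A).re * (hn w B B).re := by
  by_cases hB : B = 0
  · rw [hB, hn_zero_right, hn_zero_right]
    simp
  have hBp := k1.pos n p w hw B hB
  have hB0 : 0 < (hn w B B).re := (Complex.lt_def.1 hBp).1
  have hBi : (hn w B B).im = 0 := (Complex.lt_def.1 hBp).2.symm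
  have hBe : hn w B B = ((hn w B B).re : ℂ) := Complex.ext rfl (by simp [hBi])
  set b := (hn w B B).re with hb
  set u := hn w A B with hu
  have h1 := hn_self_nonneg k1 hw ((b : ℂ) • A + (-u) • B)
  have h3 : hn w B A = conj u := k1.conj_symm n p w hw B A
  rw [hn_add_left, hn_add_right, hn_add_right, hn_smul_left, hn_smul_left, hn_smul_left,
    hn_smul_left, hn_smul_right, hn_smul_right, hn_smul_right, hn_smul_right, h3, hBe, ← hu] at h1
  have h4 : (b : ℂ) * (conj (b : ℂ) * hn w A A) + (b : ℂ) * (conj (-u) * u) +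
      (-u * (conj (b : ℂ) * conj u) + -u * (conj (-u) * (b : ℂ))) =
      (b : ℂ) * ((b : ℂ) * hn w A A - u * conj u) := by
    rw [Complex.conj_ofReal, map_neg]
    ring
  rw [h4, Complex.mul_conj, Complex.re_ofReal_mul, Complex.sub_re, Complex.re_ofReal_mul,
    Complex.ofReal_re, Complex.normSq_eq_norm_sq] at h1
  have h5 := (mul_nonneg_iff_of_pos_left hB0).1 h1
  linarith

theorem Ad_rank {p : ℕ} (θ : Fin n → ℂ) (τ : Af n p) :
    Ad w (Matrix.of fun c d => θ c * conj (θ d)) τ =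
      hn w (∑ b, θ b • wdz b τ) (∑ b, θ b • wdz b τ) := by
  rw [hn_sum_left]
  unfold Ad
  refine Finset.sum_congr rfl fun c _ => ?_
  rw [hn_smul_left, hn_sum_right, Finset.mul_sum]
  refine Finset.sum_congr rfl fun d _ => ?_
  rw [hn_smul_right, Matrix.of_apply]
  ring

theorem Ad_smul {p : ℕ} (c : ℂ) (β : Matrix (Fin n) (Fin n) ℂ) (τ : Af n p) :
    Ad w (c • β) τ = c * Ad w β τ := by
  unfold Ad
  rw [Finset.mul_sum]
  refine Finset.sum_congr rfl fun i _ => ?_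
  rw [Finset.mul_sum]
  refine Finset.sum_congr rfl fun j _ => ?_
  rw [Matrix.smul_apply, smul_eq_mul, mul_assoc]

/-- **pairing, pointwise** -/
theorem pair_alg (hw : w.PosDef) (θ : Fin n → ℂ) (τ : Af n r) (σ : Af n (r + 1))
    {H J : Matrix (Fin n) (Fin n) ℂ} {C κ : ℝ} (hC : 0 ≤ C) (hκ : 0 < κ)
    (h1 : ((C : ℂ) • J - Matrix.of fun c d => θ c * conj (θ d)).PosSemidef)
    (h2 : (H - (κ : ℂ) • J).PosSemidef) :
    ‖hn w τ (Lam w fun b => conj (θ b) • σ)‖ ^ 2 ≤ C / κ * (Ad w H τ).re * (hn w σ σ).re := by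
  rw [hn_lam hw]
  refine (hn_cs hw _ _).trans ?_
  rw [← Ad_rank]
  refine mul_le_mul_of_nonneg_right ?_ (hn_self_nonneg k1 hw σ)
  have h3 := (Complex.le_def.1 (k1.mono n r w _ _ hw h1 τ)).1
  have h4 := (Complex.le_def.1 (k1.mono n r w _ _ hw h2 τ)).1
  rw [Ad_smul, Complex.re_ofReal_mul] at h3 h4
  refine h3.trans ?_
  rw [div_mul_eq_mul_div, le_div_iff₀ hκ]
  calc C * (Ad w J τ).re * κ = C * (κ * (Ad w J τ).re) := by ring
    _ ≤ C * (Ad w H τ).re := mul_le_mul_of_nonneg_left h4 hC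

end algebra

section
variable {n : ℕ} {X : Type} [TopologicalSpace X] [ChartedSpace (Cm n) X] {E : Type}
  [TopologicalSpace E] {p : E → X} {w : Chart n X → Cm n → Matrix (Fin n) (Fin n) ℂ} {r : ℕ}
  {F : E → Cm (r + 1)} [IsManifold 𝓘(ℂ, Cm n) ω X]
  [MeasurableSpace E] (hp : IsCoveringMap p) (hw : IsKahler w) (hB : ∃ B, HolB p w F B)
  (ψ : Cm (r + 1) → ℝ) (hψ : ContDiff ℝ ∞ ψ) (μ : Measure E) (hμ : VolE p w μ)

/-- `S s₀` in a chart -/
theorem S_s0 {g : E → ℝ} (i : IE n p) {z : Cm n} (hz : z ∈ i.1.2.target)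
    {χ : Cm (r + 1) → ℝ} (h1 : ContDiffAt ℝ ∞ χ (F (i.1.2.symm z)))
    (h2 : (fun z => g (i.1.2.symm z)) =ᶠ[𝓝 z] fun z => χ (F (i.1.2.symm z))) :
    (kE hp hw hB ψ hψ μ hμ).S (s0 F g) i z = - Lam (w i.1.1 z) fun b =>
      conj (dz b (fun z => ((χ (F (i.1.2.symm z)) : ℝ) : ℂ)) z) • vf F i z := by
  refine (if_pos hz).trans ?_
  show - Lam (w i.1.1 z) (fun b => dbV b (s0 F g i) z) = _
  congr 2
  funext b
  set f : Cm n → Cm (r + 1) := fun z => F (i.1.2.symm z) with hf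
  have hfa : AnalyticAt ℂ f z := F_an hB i hz
  have h3 : s0 F g i =ᶠ[𝓝 z] fun z => ((χ (f z) : ℝ) : ℂ) • VV f z := by
    filter_upwards [h2, vf_ev i hz] with x hx hx'
    show ((g (i.1.2.symm x) : ℝ) : ℂ) • vf F i x = _
    rw [hx', show g (i.1.2.symm x) = χ (f x) from hx]
  have h4 : DifferentiableAt ℝ (fun t => ((χ t : ℝ) : ℂ)) (f z) :=
    (Complex.ofRealCLM.contDiff.contDiffAt.comp (f z) h1).differentiableAt (by simp)
  have h5 : DifferentiableAt ℝ (fun z => ((χ (f z) : ℝ) : ℂ)) z :=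
    h4.comp z (hfa.differentiableAt.restrictScalars ℝ)
  have hV := VV_diff hfa
  have h6 : dbV b (s0 F g i) z = dbV b (fun z => ((χ (f z) : ℝ) : ℂ) • VV f z) z := by
    unfold dbV
    rw [h3.fderiv_eq]
  rw [h6, dbV_smul h5 (hV.restrictScalars ℝ), dbV_holo hV, smz, add_zero, vf_eq i hz]
  congr 1
  have h7 : fderiv ℝ (fun z => ((χ (f z) : ℝ) : ℂ)) z =
      Complex.ofRealCLM.comp (fderiv ℝ (fun z => χ (f z)) z) := by
    have h8 : DifferentiableAt ℝ (fun z => χ (f z)) z :=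
      (h1.differentiableAt (by simp)).comp z (hfa.differentiableAt.restrictScalars ℝ)
    exact (Complex.ofRealCLM.hasFDerivAt.comp z h8.hasFDerivAt).fderiv
  unfold dzb dz
  rw [h7]
  simp only [ContinuousLinearMap.comp_apply, Complex.ofRealCLM_apply, map_div₀, map_sub, map_mul,
    Complex.conj_ofReal, Complex.conj_I, map_ofNat]
  ring

end

end Vale.Agent.P284.H383.K9
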