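import Vale.Agent.P284.H383.K9.H
import Vale.Agent.P284.H136.K9.Quo
import Vale.Agent.P284.H136.K9.Tr
import Vale.Agent.P284.H286.K.Meas
import Vale.Agent.P284.H205.K.Main

/-!
# P284 (helper383), K9: `ExK` from the engine and the volume of the tubes
-/

open scoped Manifold ContDiff Topology ENNReal ComplexConjugate ComplexOrder
open Filter Set Metric MeasureTheory

noncomputable section

namespace Vale.Agent.P284.H383.K9

open Vale.Agent.P272.K Vale.Agent.P284.H894.G Vale.Agent.P284.H894.W Vale.Agent.P284.H494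
  Vale.Agent.P284.H10 Vale.Agent.P284.H224 Vale.Agent.P284.H672 Vale.Agent.P284.H608.K
  Vale.Agent.P284.H213.K

/-- the volume measure of the lifted metric -/
theorem exists_mu {n : ℕ} {X : Type} [TopologicalSpace X] [ChartedSpace (Cm n) X]
    [IsManifold 𝓘(ℂ, Cm n) ω X] {E : Type} [TopologicalSpace E] [T2Space E] [SigmaCompactSpace E]
    [MeasurableSpace E] [BorelSpace E] {p : E → X}
    {w : Chart n X → Cm n → Matrix (Fin n) (Fin n) ℂ} (hp : IsCoveringMap p) (hw : IsKahler w) :
    ∃ μ : Measure E, VolE p w μ := by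
  obtain ⟨μ, hμ⟩ := H286.K.measStmt n E (IE n p) (fun i => i.1.2) (fun i z => (w i.1.1 z).det.re)
    (fun y => by
      obtain ⟨e, ε, hε, hy, -, -⟩ := exists_ch (n := n) hp y univ_mem
      exact ⟨⟨(e, ε), hε⟩, hy⟩)
    (fun i j z hz hz' => ch_hol i.2 j.2 hz hz')
    (fun i => by
      refine Complex.continuous_re.comp_continuousOn ?_
      simp only [Matrix.det_apply']
      refine continuousOn_finsetSum _ fun σ _ => continuousOn_const.mul ?_
      refine continuousOn_finsetProd _ fun j _ z hz => ?_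
      obtain ⟨h1, h2⟩ := ch_at i.2 hz
      have := hw.smooth i.1.1 _ h1 (σ j) j
      rw [h2] at this
      exact this.continuousAt.continuousWithinAt)
    (fun i z hz => (Complex.lt_def.1 (w_pos hw i hz).det_pos).1)
    (fun i j x hi hj => by
      have h1 := hw.change i.1.1 j.1.1 (p x) ⟨i.2.mem, i.2.src x hi⟩ ⟨j.2.mem, j.2.src x hj⟩
      rw [i.2.eq x hi, j.2.eq x hj, h1, Matrix.det_mul, Matrix.det_mul, Matrix.det_transpose,
        ch_jac i.2 j.2 hi hj]
      have h2 : ((jacM i.1.1 j.1.1 (p x)).map (starRingEnd ℂ)).det =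
          conj (jacM i.1.1 j.1.1 (p x)).det := (RingHom.map_det (starRingEnd ℂ) _).symm
      rw [h2]
      set d := (jacM i.1.1 j.1.1 (p x)).det
      have h3 : d * (w j.1.1 (j.1.1 (p x))).det * conj d =
          ((‖d‖ ^ 2 : ℝ) : ℂ) * (w j.1.1 (j.1.1 (p x))).det := by
        rw [← Complex.normSq_eq_norm_sq, ← Complex.mul_conj]
        ring
      rw [h3, Complex.re_ofReal_mul])
  exact ⟨μ, fun e ε h f hf h0 => hμ ⟨(e, ε), h⟩ f hf h0⟩

/-- **ExK** from the engine, K3 and the volume of the tubes -/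
theorem exK_of (hE : EngStmt)
    (h3 : ∀ (n : ℕ) (M : Type) [TopologicalSpace M] [T2Space M] [MeasurableSpace M] [BorelSpace M]
      (K : KA n M), K3Stmt n M K) (hV : VolStmt) : ExK := by
  refine H136.K9.quoStmt ?_
  intro n q X _ _ _ _ _ _ w hw E Γ _ _ _ _ p hG F c hA hi hq y y' hyy hy hns
  let _ : MeasurableSpace E := borel E
  have : BorelSpace E := ⟨rfl⟩
  have hT2 : T2Space E := H35.S4.t2_of_cov hG.cov
  have hne : Nonempty E := ⟨y⟩
  have hσ : SigmaCompactSpace E := H573.K9.sigmaCompact_E hG hA hi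
  obtain ⟨μ, hμ⟩ := exists_mu (n := n) (w := w) hG.cov hw
  obtain ⟨h, hh, hne'⟩ := hStmt_of hE h3 n q X w hw E Γ p hG F c hA hi hq μ hμ y y' hyy hy hns
  exact H136.K9.tr_of hV n q X w hw E Γ p hG F c hA hi hq μ hμ y y' hyy hy h hh hne'

end Vale.Agent.P284.H383.K9
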