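import Vale.Agent.P284.H383.K9.Ex
import Vale.Agent.P284.H661.K.Vol
import Vale.Agent.P284.H279.K.K2

/-!
# P284 (helper383), K9: `ExK` from the engine
-/

noncomputable section

namespace Vale.Agent.P284.H383.K9

open Vale.Agent.P284.H608.K Vale.Agent.P284.H213.K

/-- K3 -/
theorem k3 : ∀ (n : ℕ) (M : Type) [TopologicalSpace M] [T2Space M] [MeasurableSpace M]
    [BorelSpace M] (K : KA n M), K3Stmt n M K :=
  H205.K.k3_of k1 (H279.K.k2Adj_of k1) (H279.K.k2BK_of k1) (H279.K.k2BK0_of k1)

/-- **(H)** from the engine -/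
theorem hStmt (hE : EngStmt) : HStmt := hStmt_of hE k3

/-- **ExK** from the engine -/
theorem exK (hE : EngStmt) : ExK := exK_of hE k3 H661.K.volStmt

end Vale.Agent.P284.H383.K9
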