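import Vale.Agent.P284.H383.K9.Ex2
import Vale.Agent.P284.H286.K.Eng
import Vale.Agent.P284.H419.K.Den
import Vale.Agent.P284.H366.K.K7

/-!
# P284 (helper383), K9: `ExK`, unconditional
-/

noncomputable section

namespace Vale.Agent.P284.H383.K9

open Vale.Agent.P284.H608.K Vale.Agent.P284.H213.K

/-- **ENGINE** -/
theorem eng : EngStmt :=
  H286.K.eng_of k1 k3 (fun n M _ _ _ _ K => H419.K.k45_of k1 (k3 n M K))
    (fun n M _ _ _ _ K => H419.K.k45z_of k1 (k3 n M K))
    (fun n M _ _ _ _ _ K => H366.K.k7_of k1 (k3 n M K))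

/-- **ExK** -/
theorem exKv : ExK := exK eng

end Vale.Agent.P284.H383.K9
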