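import Vale.Agent.P284.H383.K9.D

/-!
# P284 (helper383), K9: the pairing of `S s₀` with test forms
-/

open scoped Manifold ContDiff Topology ENNReal ComplexConjugate ComplexOrder
open Filter Set Metric MeasureTheory

noncomputable section

namespace Vale.Agent.P284.H383.K9

open Vale.Agent.P272.K Vale.Agent.P284.H894.G Vale.Agent.P284.H894.W Vale.Agent.P284.H494
  Vale.Agent.P284.H10 Vale.Agent.P284.H224 Vale.Agent.P284.H672 Vale.Agent.P284.H608.K
  Vale.Agent.P284.H366.K Vale.Agent.P284.H573.K9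
open Vale.Agent.P272.K.QN (jm dz_comp_F dzb_comp_F jm_apply)

/-- Cauchy-Schwarz for integrals, with a pointwise bound -/
theorem int_cs {α : Type*} [MeasurableSpace α] {μ : Measure α} {u : α → ℂ} {a m : α → ℝ}
    (ha : ∀ x, 0 ≤ a x) (hm : ∀ x, 0 ≤ m x) (hia : Integrable a μ) (him : Integrable m μ)
    (h : ∀ x, ‖u x‖ ^ 2 ≤ a x * m x) : ‖∫ x, u x ∂μ‖ ^ 2 ≤ (∫ x, a x ∂μ) * ∫ x, m x ∂μ := by
  set A := ∫ x, a x ∂μ with hA
  set M := ∫ x, m x ∂μ with hM
  set U := ∫ x, ‖u x‖ ∂μ with hU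
  have hA0 : 0 ≤ A := integral_nonneg ha
  have hM0 : 0 ≤ M := integral_nonneg hm
  have hU0 : 0 ≤ U := integral_nonneg fun x => norm_nonneg _
  have h1 : ∀ l : ℝ, 0 < l → 2 * U ≤ l * A + l⁻¹ * M := by
    intro l hl
    have h2 : U ≤ ∫ x, (l * a x + l⁻¹ * m x) / 2 ∂μ := by
      refine integral_mono_of_nonneg (Eventually.of_forall fun x => norm_nonneg _)
        (((hia.const_mul l).add (him.const_mul l⁻¹)).div_const 2) (Eventually.of_forall fun x => ?_)
      show ‖u x‖ ≤ (l * a x + l⁻¹ * m x) / 2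
      refine le_of_sq_le_sq ?_ (by
        have := mul_nonneg hl.le (ha x)
        have := mul_nonneg (inv_nonneg.2 hl.le) (hm x)
        positivity)
      refine (h x).trans ?_
      have h3 : a x * m x = (l * a x) * (l⁻¹ * m x) := by field_simp
      rw [h3, div_pow]
      nlinarith [sq_nonneg (l * a x - l⁻¹ * m x)]
    have h4 : ∫ x, (l * a x + l⁻¹ * m x) / 2 ∂μ = (l * A + l⁻¹ * M) / 2 := by
      rw [integral_div, integral_add (hia.const_mul l) (him.const_mul l⁻¹), integral_const_mul,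
        integral_const_mul]
    rw [h4] at h2
    linarith
  have h5 : discrim A (-(2 * U)) M ≤ 0 := by
    refine discrim_le_zero fun l => ?_
    rcases le_or_gt l 0 with hl | hl
    · have := mul_nonneg hA0 (mul_self_nonneg l)
      nlinarith [mul_nonneg (neg_nonneg.2 hl) hU0]
    · have h6 := h1 l hl
      have h7 : l * (2 * U) ≤ l * (l * A + l⁻¹ * M) := mul_le_mul_of_nonneg_left h6 hl.le
      have h8 : l * (l * A + l⁻¹ * M) = A * (l * l) + M := by field_simp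
      rw [h8] at h7
      linarith
  unfold discrim at h5
  have h9 : ‖∫ x, u x ∂μ‖ ≤ U := norm_integral_le_integral_norm _
  have h10 : ‖∫ x, u x ∂μ‖ ^ 2 ≤ U ^ 2 := pow_le_pow_left₀ (norm_nonneg _) h9 2
  nlinarith

section
variable {n : ℕ} {X : Type} [TopologicalSpace X] [ChartedSpace (Cm n) X] {E : Type}
  [TopologicalSpace E] {p : E → X} {w : Chart n X → Cm n → Matrix (Fin n) (Fin n) ℂ} {r : ℕ}
  {F : E → Cm (r + 1)} [IsManifold 𝓘(ℂ, Cm n) ω X]
  [MeasurableSpace E] (hp : IsCoveringMap p) (hw : IsKahler w) (hB : ∃ B, HolB p w F B)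
  (μ : Measure E) (hμ : VolE p w μ)

/-- the manifold with the weight `N log (1 + |F - a|²)` -/
abbrev kN (N : ℝ) (a : Cm (r + 1)) : KA n E :=
  kE hp hw hB (psi N a) (psi_smooth N a) μ hμ

/-- the manifold with the weight `0` -/
abbrev k0 : KA n E := kE hp hw hB (fun _ => 0) contDiff_const μ hμ

/-- `1 + |t - a|²` -/
def d1 (a t : Cm (r + 1)) : ℝ := 1 + ∑ k, ‖t k - a k‖ ^ 2

theorem d1_pos (a t : Cm (r + 1)) : 0 < d1 a t := by
  have := one_le_den a t
  unfold d1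
  linarith

theorem pair_pt {g : E → ℝ} (x : E) {N : ℝ} (hN : 0 < N) (a : Cm (r + 1)) {C : ℝ} (hC0 : 0 ≤ C)
    (hloc : ∃ χ : Cm (r + 1) → ℝ, ContDiffAt ℝ ∞ χ (F x) ∧ (g =ᶠ[𝓝 x] fun y => χ (F y)) ∧
      ∑ k, ‖dz k (fun t => (χ t : ℂ)) (F x)‖ ^ 2 ≤ C) (τ : (kN hp hw hB μ hμ N a).Fm r) :
    ‖(kN hp hw hB μ hμ N a).dn τ ((kN hp hw hB μ hμ N a).S (s0 F g)) x‖ ^ 2 ≤
      C * d1 a (F x) ^ 2 / N * (kN hp hw hB μ hμ N a).dA τ x *
        (Real.exp (-psi N a (F x)) * den w F ((kN hp hw hB μ hμ N a).ix x) x) := by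
  obtain ⟨χ, h1, h2, h3⟩ := hloc
  set i : IE n p := (kN hp hw hB μ hμ N a).ix x with hi
  have hx : x ∈ i.1.2.source := ((kN hp hw hB μ hμ N a).cover x).choose_spec
  set z : Cm n := i.1.2 x with hz
  have hzt : z ∈ i.1.2.target := i.1.2.map_source hx
  have hsx : i.1.2.symm z = x := i.1.2.left_inv hx
  set f : Cm n → Cm (r + 1) := fun z => F (i.1.2.symm z) with hf
  have hfz : f z = F x := by rw [hf]; simp only [hsx]
  have hfa : AnalyticAt ℂ f z := F_an hB i hzt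
  have h4 : (fun z => g (i.1.2.symm z)) =ᶠ[𝓝 z] fun z => χ (f z) := by
    have h5 := i.1.2.continuousAt_symm hzt
    unfold ContinuousAt at h5
    rw [hsx] at h5
    exact h5.eventually h2
  have h6 := S_s0 hp hw hB (psi N a) (psi_smooth N a) μ hμ (g := g) i hzt (χ := χ)
    (by rw [hsx]; exact h1) h4
  have hwp : (w i.1.1 z).PosDef := (kN hp hw hB μ hμ N a).wpos i z hzt
  -- the curvature
  have hχd : DifferentiableAt ℝ χ (f z) := by rw [hfz]; exact h1.differentiableAt (by simp)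
  have hc : ∑ k, ‖dz k (fun t => (χ t : ℂ)) (f z)‖ ^ 2 ≤ C := by rw [hfz]; exact h3
  have h7 := chain_psd hχd hfa.differentiableAt hc
  have h8 := psi_psh hN.le a hfa
  have h9 := pair_alg hwp (fun b => dz b (fun y => (χ (f y) : ℂ)) z) (τ i z) (vf F i z) hC0
    (κ := N / (1 + ∑ k, ‖f z k - a k‖ ^ 2) ^ 2)
    (div_pos hN (pow_pos (d1_pos a (f z)) 2)) h7 h8
  have e1 : (kN hp hw hB μ hμ N a).dn τ ((kN hp hw hB μ hμ N a).S (s0 F g)) x = (Real.exp (-psi N a (F x)) : ℂ) *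
      hn (w i.1.1 z) (τ i z) ((kN hp hw hB μ hμ N a).S (s0 F g) i z) := by
    show (Real.exp (-psi N a (F (i.1.2.symm (i.1.2 x)))) : ℂ) * _ = _
    rw [i.1.2.left_inv hx]
    rfl
  have e2 : (kN hp hw hB μ hμ N a).dA τ x = Real.exp (-psi N a (F x)) *
      (Ad (w i.1.1 z) (cHess (fun y => psi N a (f y)) z) (τ i z)).re := by
    show Real.exp (-psi N a (F (i.1.2.symm (i.1.2 x)))) * _ = _
    rw [i.1.2.left_inv hx]
    rfl
  have e3 : hn (w i.1.1 z) (τ i z) ((kN hp hw hB μ hμ N a).S (s0 F g) i z) = - hn (w i.1.1 z) (τ i z)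
      (Lam (w i.1.1 z) fun b => conj (dz b (fun y => (χ (f y) : ℂ)) z) • vf F i z) := by
    rw [h6]
    have e4 : ∀ A B : Af n r, hn (w i.1.1 z) A (-B) = - hn (w i.1.1 z) A B := by
      intro A B
      have : -B = (-1 : ℂ) • B := by ext v; show - B v = (-1 : ℂ) * B v; ring
      rw [this, hn_smul_right]
      simp
    exact e4 _ _
  rw [e1, e2, e3, norm_mul, mul_pow, Complex.norm_real, Real.norm_eq_abs, abs_of_pos
    (Real.exp_pos _), norm_neg]
  have e5 : C / (N / (1 + ∑ k, ‖f z k - a k‖ ^ 2) ^ 2) = C * d1 a (F x) ^ 2 / N := by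
    rw [hfz]
    unfold d1
    field_simp
  rw [e5] at h9
  have h10 : 0 ≤ Real.exp (-psi N a (F x)) ^ 2 := by positivity
  calc Real.exp (-psi N a (F x)) ^ 2 * _ ≤ Real.exp (-psi N a (F x)) ^ 2 * _ :=
        mul_le_mul_of_nonneg_left h9 h10
    _ = _ := by
        unfold den
        ring

end

end Vale.Agent.P284.H383.K9
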