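import Vale.Agent.P284.H383.K9.N

/-!
# P284 (helper383), K9: the engine gives a function which separates the components of a fibre
-/

open scoped Manifold ContDiff Topology ENNReal ComplexConjugate ComplexOrder
open Filter Set Metric MeasureTheory

noncomputable section

namespace Vale.Agent.P284.H383.K9

open Vale.Agent.P272.K Vale.Agent.P284.H894.G Vale.Agent.P284.H894.W Vale.Agent.P284.H494
  Vale.Agent.P284.H10 Vale.Agent.P284.H224 Vale.Agent.P284.H672 Vale.Agent.P284.H608.K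
  Vale.Agent.P284.H366.K Vale.Agent.P284.H573.K9

section
variable {n : ℕ} {X : Type} [TopologicalSpace X] [ChartedSpace (Cm n) X] {E : Type}
  [TopologicalSpace E] {p : E → X} {w : Chart n X → Cm n → Matrix (Fin n) (Fin n) ℂ} {r : ℕ}
  {F : E → Cm (r + 1)} [IsManifold 𝓘(ℂ, Cm n) ω X] [T2Space E]
  [MeasurableSpace E] [BorelSpace E] (hp : IsCoveringMap p) (hw : IsKahler w) (hB : ∃ B, HolB p w F B)
  (μ : Measure E) (hμ : VolE p w μ)

theorem d1_le (a t : Cm (r + 1)) : d1 a t ≤ (1 + (r + 1 : ℕ) * (1 + ‖a‖) ^ 2) * (1 + ‖t‖) ^ 2 := by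
  unfold d1
  have h1 : ∑ k, ‖t k - a k‖ ^ 2 ≤ ∑ _k : Fin (r + 1), ((1 + ‖a‖) * (1 + ‖t‖)) ^ 2 := by
    refine Finset.sum_le_sum fun k _ => pow_le_pow_left₀ (norm_nonneg _) ?_ 2
    have h2 : ‖t k - a k‖ ≤ ‖t - a‖ := norm_le_pi_norm (t - a) k
    have h3 := norm_sub_le t a
    nlinarith [norm_nonneg t, norm_nonneg a, mul_nonneg (norm_nonneg t) (norm_nonneg a)]
  rw [Finset.sum_const, Finset.card_univ, Fintype.card_fin, nsmul_eq_mul, mul_pow] at h1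
  have h4 : 1 ≤ (1 + ‖t‖) ^ 2 := by nlinarith [norm_nonneg t]
  nlinarith

/-- the density of `s` at the regular points -/
theorem dn_quo {N : ℝ} {a : Cm (r + 1)} (h3 : K3Stmt n E (kN hp hw hB μ hμ N a))
    {s : (kN hp hw hB μ hμ N a).Fm (r + 1)} (hs : (kN hp hw hB μ hμ N a).IsForm s) {y : E}
    (hc : ∃ c : ℂ, ∀ i : IE n p, y ∈ i.1.2.source → s i (i.1.2 y) = c • vf F i (i.1.2 y)) :
    ((kN hp hw hB μ hμ N a).dn s s y).re =
      Real.exp (-psi N a (F y)) * (‖quo F s y‖ ^ 2 * dV hp w F y) := by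
  set i : IE n p := ch n hp y with hi
  have hyi : y ∈ i.1.2.source := (exists_ch (n := n) hp y univ_mem).choose_spec.choose_spec.2.1
  have h1 : (kN hp hw hB μ hμ N a).dn s s y = (Real.exp (-psi N a (F (i.1.2.symm (i.1.2 y)))) : ℂ) *
      hn (w i.1.1 (i.1.2 y)) (s i (i.1.2 y)) (s i (i.1.2 y)) := h3.dn_eq (r + 1) s s hs hs i y hyi
  rw [h1, i.1.2.left_inv hyi, Complex.re_ofReal_mul, quo_spec hc i hyi, hn_smul_self]
  rfl

/-- the mass of the quotient -/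
theorem quo_mass (hRV : IsOpen (RV n p F)) (hFc : Continuous F) (N : ℕ) {a : Cm (r + 1)} (h3 : K3Stmt n E (kN hp hw hB μ hμ N a))
    {s : (kN hp hw hB μ hμ N a).Fm (r + 1)} (hs : (kN hp hw hB μ hμ N a).IsForm s)
    (hc : ∀ y, Reg (n := n) p F y → ∃ c : ℂ, ∀ i : IE n p, y ∈ i.1.2.source →
      s i (i.1.2 y) = c • vf F i (i.1.2 y)) (hnl : (kN hp hw hB μ hμ N a).nl s < ⊤) :
    ∫⁻ y in F ⁻¹' RV n p F, ENNReal.ofReal (‖quo F s y‖ ^ 2 * dV hp w F y) *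
      ENNReal.ofReal (((1 + ‖F y‖) ^ (2 * N))⁻¹) ∂μ < ⊤ := by
  set κ : ℝ := 1 + (r + 1 : ℕ) * (1 + ‖a‖) ^ 2 with hκ
  have hκ0 : 0 < κ := by positivity
  have hms : ∀ y, Reg (n := n) p F y → ENNReal.ofReal (‖quo F s y‖ ^ 2 * dV hp w F y) *
      ENNReal.ofReal (((1 + ‖F y‖) ^ (2 * N))⁻¹) ≤
        ENNReal.ofReal (κ ^ N) * ENNReal.ofReal ((kN hp hw hB μ hμ N a).dn s s y).re := by
    intro y hy
    have h4 : 0 ≤ (‖quo F s y‖ ^ 2 * dV hp w F y) := by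
      refine mul_nonneg (sq_nonneg _) ?_
      have hyi : y ∈ (ch n hp y).1.2.source :=
        (exists_ch (n := n) hp y univ_mem).choose_spec.choose_spec.2.1
      exact hn_self_nonneg k1 (w_pos hw (ch n hp y) ((ch n hp y).1.2.map_source hyi)) _
    rw [dn_quo hp hw hB μ hμ h3 hs (hc y hy), ← ENNReal.ofReal_mul h4,
      ← ENNReal.ofReal_mul (by positivity), exp_psi]
    refine ENNReal.ofReal_le_ofReal ?_
    have h5 : ((1 + ‖F y‖) ^ (2 * N))⁻¹ ≤ κ ^ N * (d1 a (F y) ^ N)⁻¹ := by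
      have hd := d1_pos a (F y)
      have h6 : 0 < (1 + ‖F y‖) ^ (2 * N) := by positivity
      rw [← div_eq_mul_inv, inv_le_comm₀ h6 (by positivity), inv_div, div_le_iff₀ (by positivity),
        pow_mul, ← mul_pow]
      refine pow_le_pow_left₀ hd.le ?_ N
      have := d1_le a (F y)
      rw [mul_comm]
      exact this
    calc (‖quo F s y‖ ^ 2 * dV hp w F y) * ((1 + ‖F y‖) ^ (2 * N))⁻¹
        ≤ (‖quo F s y‖ ^ 2 * dV hp w F y) * (κ ^ N * (d1 a (F y) ^ N)⁻¹) :=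
          mul_le_mul_of_nonneg_left h5 h4
      _ = _ := by ring
  have hev : ∀ y ∈ F ⁻¹' RV n p F, ENNReal.ofReal (‖quo F s y‖ ^ 2 * dV hp w F y) *
      ENNReal.ofReal (((1 + ‖F y‖) ^ (2 * N))⁻¹) ≤
        ENNReal.ofReal (κ ^ N) * ENNReal.ofReal ((kN hp hw hB μ hμ N a).dn s s y).re :=
    fun y hy => hms y (hy y rfl)
  refine lt_of_le_of_lt (setLIntegral_mono' (hRV.preimage hFc).measurableSet hev) ?_
  rw [lintegral_const_mul' _ _ ENNReal.ofReal_ne_top]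
  refine ENNReal.mul_lt_top ENNReal.ofReal_lt_top (lt_of_le_of_lt ?_ hnl)
  exact lintegral_mono' Measure.restrict_le_self le_rfl

/-- `s₀` is square integrable -/
theorem nl_s0 (ψ : Cm (r + 1) → ℝ) (hψ : ContDiff ℝ ∞ ψ)
    (h3 : K3Stmt n E (kE hp hw hB ψ hψ μ hμ)) {g : E → ℝ} (hg : LocF F g) {C : Set E}
    (hC : IsCompact C) (h0 : ∀ x, x ∉ C → g x = 0) :
    (kE hp hw hB ψ hψ μ hμ).nl (s0 F g) < ⊤ := by
  have ht := s0_test hp hw hB ψ hψ μ hμ hg hC h0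
  have h1 := (h3.int (r + 1) (s0 F g) (s0 F g) ht ht.form ht.smooth).1
  exact h1.re.lintegral_lt_top

end

/-- **(H)** -/
theorem hStmt_of (hE : EngStmt)
    (h3 : ∀ (n : ℕ) (M : Type) [TopologicalSpace M] [T2Space M] [MeasurableSpace M] [BorelSpace M]
      (K : KA n M), K3Stmt n M K) : HStmt := by
  intro n q X _ _ _ _ _ _ w hw E Γ _ _ _ _ _ _ p hG F c hA hi hq μ hμ y y' hyy hy hns
  obtain ⟨r, rfl⟩ : ∃ r, q = r + 1 := ⟨q - 1, by omega⟩
  have hT2 : T2Space E := H35.S4.t2_of_cov hG.cov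
  have hne : Nonempty E := ⟨y⟩
  have hp := hG.cov
  have hB : ∃ B, HolB p w F B := hA.hol
  obtain ⟨B, hB'⟩ := id hB
  have hFc := per_cont hG.cov hA
  have hRV : IsOpen (RV n p F) := rv_open hG hA
  have hprop : ∀ (a : Cm (r + 1)) (R : ℝ), IsCompact (F ⁻¹' closedBall a R) := proper hG hA hi
  obtain ⟨r₀, hr₀, O₁, O₂, hO₁, hO₂, hd, hb, hyO, hyO'⟩ := separate hG hA hi hyy hns
  set a : Cm (r + 1) := F y with ha
  set χ : Cm (r + 1) → ℝ := ⇑(b1 a hr₀) with hχ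
  set g : E → ℝ := gcut F O₁ χ with hg
  have hgl : LocF F g := gcut_loc hFc hO₁ hO₂ hd hb (b1 a hr₀).contDiff (r' := r₀ / 2) (by linarith)
    (b_zero (b1 a hr₀))
  have hgC : ∀ x, x ∉ F ⁻¹' closedBall a r₀ → g x = 0 := by
    intro x hx
    have h4 : ¬ F x ∈ closedBall a r₀ := hx
    rw [mem_closedBall_iff_norm, not_le] at h4
    rw [hg]
    unfold gcut
    split_ifs
    · refine b_zero (b1 a hr₀) _ ?_
      show r₀ / 2 < _
      linarith
    · rfl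
  -- values of the cut-off
  have hg1 : ∀ᶠ x in 𝓝 y, g x = (1 : ℝ) := by
    have h5 : ∀ᶠ x in 𝓝 y, χ (F x) = 1 := by
      refine hFc.continuousAt.eventually (b_ev_one (b1 a hr₀) ?_)
      rw [← ha, sub_self, norm_zero]
      show 0 < r₀ / 4
      positivity
    filter_upwards [h5, hO₁.mem_nhds hyO] with x h6 h7
    rw [hg]
    unfold gcut
    rw [if_pos h7, h6]
  have hg0 : ∀ᶠ x in 𝓝 y', g x = (0 : ℝ) := by
    filter_upwards [hO₂.mem_nhds hyO'] with x h6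
    exact if_neg fun h => disjoint_left.1 hd h h6
  have hreg : Reg (n := n) p F y := hy y rfl
  have hreg' : Reg (n := n) p F y' := hy y' hyy
  obtain ⟨I₀, hI₀, hpair⟩ := pair_glob hp hw hB μ hμ hFc hO₁ hO₂ hd hr₀ hb (hprop a)
    (h3 n E (k0 hp hw hB μ hμ))
  set δ : ℝ := (r₀ / 4) ^ 2 with hδ
  have hδ0 : 0 < δ := by positivity
  set D : ℝ := 1 + δ / 2 with hD
  have hD1 : 1 < D := by linarith
  obtain ⟨C₁, hC₁, hpk⟩ := peak hp hw hB μ hμ (fun N a => h3 n E (kN hp hw hB μ hμ N a)) hgl hg1 hreg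
    hD1 (a := a) rfl
  obtain ⟨C₂, hC₂, hpk'⟩ := peak hp hw hB μ hμ (fun N a => h3 n E (kN hp hw hB μ hμ N a)) hgl hg0
    hreg' hD1 (a := a) hyy
  -- the choice of `N`
  set θ : ℝ := D / (1 + δ) with hθ
  have hθ0 : 0 ≤ θ := by positivity
  have hθ1 : θ < 1 := by
    rw [hθ, div_lt_one (by positivity)]
    linarith
  have hlim : ∀ C : ℝ, ∀ᶠ N : ℕ in atTop, C * I₀ * θ ^ N < 1 / 4 := by
    intro C
    have h4 := (tendsto_pow_atTop_nhds_zero_of_lt_one hθ0 hθ1).const_mul (C * I₀)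
    rw [mul_zero] at h4
    exact h4.eventually_lt_const (by norm_num)
  obtain ⟨N, hN1, hN2, hN3⟩ := ((eventually_ge_atTop 1).and ((hlim C₁).and (hlim C₂))).exists
  have hN0 : (0 : ℝ) ≤ N := Nat.cast_nonneg N
  have hNp : (0 : ℝ) < N := by exact_mod_cast hN1
  have h3N := h3 n E (kN hp hw hB μ hμ N a)
  -- the engine
  have hpsd : ∀ i : IE n p, ∀ z ∈ i.1.2.target,
      (cHess (fun z => psi N a (F (i.1.2.symm z))) z).PosSemidef := by
    intro i z hz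
    have h8 := psi_psh hN0 a (F_an hB i hz)
    have h9 := JJ_psd (F_an hB i hz).differentiableAt
    have h10 := h8.add (h9.smul (show (0 : ℂ) ≤
        ((N / (1 + ∑ k, ‖F (i.1.2.symm z) k - a k‖ ^ 2) ^ 2 : ℝ) : ℂ) by
      rw [Complex.zero_le_real]; positivity))
    rwa [sub_add_cancel] at h10
  set C₀ : ℝ := I₀ * ((1 + δ) ^ N)⁻¹ with hC₀
  have hC₀0 : 0 ≤ C₀ := by positivity
  have hnl0 : (kN hp hw hB μ hμ N a).nl (s0 F g) < ⊤ :=
    nl_s0 hp hw hB μ hμ (psi N a) (psi_smooth N a) h3N hgl (hprop a r₀) hgC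
  obtain ⟨s, hsf, hsh, hsA, hsl⟩ := hE n E (kN hp hw hB μ hμ N a)
    (cutE hG hA hi hp hw hB (psi N a) (psi_smooth N a) μ hμ) hpsd r (s0 F g)
    (s0_form hp hw hB (psi N a) (psi_smooth N a) μ hμ g)
    (s0_smooth hp hw hB (psi N a) (psi_smooth N a) μ hμ hgl) hnl0
    (s0_dh hp hw hB (psi N a) (psi_smooth N a) μ hμ hgl) C₀ (hpair N hN1 h3N)
  have hc : ∀ x, Reg (n := n) p F x → ∃ c : ℂ, ∀ i : IE n p, x ∈ i.1.2.source →
      s i (i.1.2 x) = c • vf F i (i.1.2 x) := fun x hx =>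
    quo_ex hp hw hB μ hμ hNp a hsf hsA hx
  have hnl : (kN hp hw hB μ hμ N a).nl s < ⊤ := by
    have h5 := H286.K.nl_young k1 h3N (H286.K.form_sub hsf
      (s0_form hp hw hB (psi N a) (psi_smooth N a) μ hμ g))
      (H286.K.smooth_sub (H286.K.smooth_of_hol hsh)
        (s0_smooth hp hw hB (psi N a) (psi_smooth N a) μ hμ hgl))
      (s0_form hp hw hB (psi N a) (psi_smooth N a) μ hμ g)
      (s0_smooth hp hw hB (psi N a) (psi_smooth N a) μ hμ hgl) one_pos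
    have e2 : (kN hp hw hB μ hμ N a).nl (s - S0 hp hw hB μ hμ N a g + S0 hp hw hB μ hμ N a g) =
        (kN hp hw hB μ hμ N a).nl s := by
      congr 1
      funext i z
      exact sub_add_cancel (s i z) _
    refine lt_of_le_of_lt (e2.symm.le.trans h5) (ENNReal.add_lt_top.2 ⟨?_, ?_⟩)
    · exact ENNReal.mul_lt_top ENNReal.ofReal_lt_top (lt_of_le_of_lt hsl ENNReal.ofReal_lt_top)
    · exact ENNReal.mul_lt_top ENNReal.ofReal_lt_top hnl0
  refine ⟨quo F s, ⟨fun x hx => ?_, 2 * N, quo_mass hp hw hB μ hμ hRV hFc N h3N hsf hc hnl⟩, ?_⟩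
  · refine hol_loc hp hB' hFc (quo_hol hRV hFc hsh hp hB hc) hRV (fun t => ?_) hx
    have := hprop t 0
    rwa [closedBall_zero] at this
  · have h6 := hpk N s C₀ hC₀0 hsf hsh (hc y hreg) hsl
    have h7 := hpk' N s C₀ hC₀0 hsf hsh (hc y' hreg') hsl
    have e1 : ∀ C : ℝ, C * D ^ N * C₀ = C * I₀ * θ ^ N := by
      intro C
      rw [hC₀, hθ, div_pow]
      ring
    rw [e1] at h6 h7
    have h8 : ‖quo F s y - (1 : ℝ)‖ ^ 2 < 1 / 4 := lt_of_le_of_lt h6 hN2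
    have h9 : ‖quo F s y' - (0 : ℝ)‖ ^ 2 < 1 / 4 := lt_of_le_of_lt h7 hN3
    have h10 : ‖quo F s y - (1 : ℝ)‖ < 1 / 2 := by
      nlinarith [norm_nonneg (quo F s y - ((1 : ℝ) : ℂ))]
    have h11 : ‖quo F s y' - (0 : ℝ)‖ < 1 / 2 := by
      nlinarith [norm_nonneg (quo F s y' - ((0 : ℝ) : ℂ))]
    intro h12
    rw [← h12] at h11
    have h13 : ‖(1 : ℂ)‖ ≤ ‖quo F s y - ((0 : ℝ) : ℂ)‖ + ‖quo F s y - ((1 : ℝ) : ℂ)‖ := by
      calc ‖(1 : ℂ)‖ = ‖(quo F s y - ((0 : ℝ) : ℂ)) - (quo F s y - ((1 : ℝ) : ℂ))‖ := by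
            congr 1
            push_cast
            ring
        _ ≤ _ := norm_sub_le _ _
    rw [norm_one] at h13
    linarith

end Vale.Agent.P284.H383.K9
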