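import Vale.Agent.P284.H383.K9.T
import Mathlib.Analysis.Calculus.ImplicitContDiff
import Mathlib.Analysis.Complex.AbsMax

/-!
# P284 (helper383), K9: functions which are holomorphic near the regular fibres
-/

open scoped Manifold ContDiff Topology ENNReal ComplexConjugate ComplexOrder
open Filter Set Metric MeasureTheory

noncomputable section

namespace Vale.Agent.P284.H383.K9

open Vale.Agent.P272.K Vale.Agent.P284.H894.G Vale.Agent.P284.H894.W Vale.Agent.P284.H494
  Vale.Agent.P284.H10 Vale.Agent.P284.H224 Vale.Agent.P284.H672 Vale.Agent.P284.H608.K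

/-- local form of a submersion, with analytic inverse -/
theorem straight {n q : ℕ} {f : Cm n → Cm q} {z : Cm n} (hf : AnalyticAt ℂ f z)
    (hs : Function.Surjective (fderiv ℂ f z)) (O : Set (Cm n)) (hO : O ∈ 𝓝 z) :
    ∃ δ > 0, ∃ G : Cm q × (fderiv ℂ f z).ker → Cm n,
      AnalyticOnNhd ℂ G (ball (f z, 0) δ) ∧
      (∀ a ∈ ball (f z, (0 : (fderiv ℂ f z).ker)) δ, G a ∈ O ∧ f (G a) = a.1) ∧ G (f z, 0) = z ∧
      ∃ κ : Cm n → (fderiv ℂ f z).ker, ContinuousAt κ z ∧ κ z = 0 ∧
        ∀ᶠ z' in 𝓝 z, G (f z', κ z') = z' := by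
  have hfc : ContDiffAt ℂ ω f z := hf.contDiffAt
  have hst : HasStrictFDerivAt f (fderiv ℂ f z) z := hfc.hasStrictFDerivAt (by simp)
  have hr : (fderiv ℂ f z).range = ⊤ := LinearMap.range_eq_top.2 hs
  have hker : (fderiv ℂ f z).ker.ClosedComplemented :=
    ContinuousLinearMap.ker_closedComplemented_of_finiteDimensional_range _
  set φ := HasStrictFDerivAt.implicitFunctionDataOfComplemented f (fderiv ℂ f z) hst hr hker with hφ
  set e := φ.toOpenPartialHomeomorph with he
  have hz : z ∈ e.source := φ.pt_mem_toOpenPartialHomeomorph_source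
  have hez : e z = (f z, 0) := by
    show (f z, Classical.choose hker (z - z)) = _
    rw [sub_self, map_zero]
  have hsy : ContDiffAt ℂ ω e.symm (f z, 0) := by
    have h1 : ContDiffAt ℂ ω φ.implicitFunction.uncurry (φ.prodFun φ.pt) := by
      refine φ.contDiffAt_implicitFunction hfc ?_ (by simp)
      show ContDiffAt ℂ ω (fun x => Classical.choose hker (x - z)) z
      exact (ContinuousLinearMap.contDiff _).contDiffAt.comp z (contDiffAt_id.sub contDiffAt_const)
    have h2 : φ.prodFun φ.pt = (f z, 0) := hez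
    rw [h2] at h1
    exact h1
  have han : AnalyticAt ℂ e.symm (f z, 0) := hsy.analyticAt
  have hzt : (f z, (0 : (fderiv ℂ f z).ker)) ∈ e.target := by rw [← hez]; exact e.map_source hz
  have hsz : e.symm (f z, 0) = z := by rw [← hez]; exact e.left_inv hz
  have h3 : ∀ᶠ a in 𝓝 (f z, (0 : (fderiv ℂ f z).ker)), AnalyticAt ℂ e.symm a ∧ a ∈ e.target ∧
      e.symm a ∈ O := by
    have h4 : ∀ᶠ a in 𝓝 (f z, (0 : (fderiv ℂ f z).ker)), e.symm a ∈ O := by
      have h5 := han.continuousAt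
      unfold ContinuousAt at h5
      rw [hsz] at h5
      exact h5.eventually hO
    exact han.eventually_analyticAt.and (Filter.Eventually.and (e.open_target.mem_nhds hzt) h4)
  obtain ⟨δ, hδ, hb⟩ := Metric.eventually_nhds_iff_ball.1 h3
  refine ⟨δ, hδ, e.symm, fun a ha => (hb a ha).1, fun a ha => ⟨(hb a ha).2.2, ?_⟩, hsz,
    fun z' => (e z').2, ?_, ?_, ?_⟩
  · have h4 : (e (e.symm a)).1 = f (e.symm a) := rfl
    rw [← h4, e.right_inv (hb a ha).2.1]
  · exact continuous_snd.continuousAt.comp (e.continuousAt hz)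
  · show (e z).2 = 0
    rw [hez]
  · filter_upwards [e.open_source.mem_nhds hz] with z' hz'
    have h4 : (f z', (e z').2) = e z' := rfl
    rw [h4]
    exact e.left_inv hz'

section
variable {n : ℕ} {X : Type} [TopologicalSpace X] [ChartedSpace (Cm n) X] {E : Type}
  [TopologicalSpace E] {p : E → X} {w : Chart n X → Cm n → Matrix (Fin n) (Fin n) ℂ} {q : ℕ}
  {F : E → Cm q} {h : E → ℂ}

variable (n) in
/-- `h` is holomorphic near the regular fibres -/
def HolR (p : E → X) (F : E → Cm q) (h : E → ℂ) : Prop :=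
  ∀ y, F y ∈ RV n p F → ∀ i : IE n p, y ∈ i.1.2.source →
    AnalyticAt ℂ (fun z => h (i.1.2.symm z)) (i.1.2 y)

/-- components of fibres are closed -/
theorem isClosed_comp' (hF : Continuous F) (x : E) :
    IsClosed (connectedComponentIn (F ⁻¹' {F x}) x) := by
  have h1 : IsPreconnected (closure (connectedComponentIn (F ⁻¹' {F x}) x)) :=
    isPreconnected_connectedComponentIn.closure
  have h2 : closure (connectedComponentIn (F ⁻¹' {F x}) x) ⊆ F ⁻¹' {F x} :=
    closure_minimal (connectedComponentIn_subset _ _) (isClosed_singleton.preimage hF)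
  have h3 : x ∈ closure (connectedComponentIn (F ⁻¹' {F x}) x) :=
    subset_closure (mem_connectedComponentIn rfl)
  have h4 := h1.subset_connectedComponentIn h3 h2
  exact closure_subset_iff_isClosed.1 h4

variable [IsManifold 𝓘(ℂ, Cm n) ω X]

/-- local form of `F` near a regular point -/
theorem fib_chart (hp : IsCoveringMap p) {B : ℝ} (hB : HolB p w F B) {y : E}
    (hy : Reg (n := n) p F y) {U : Set E} (hU : U ∈ 𝓝 y) :
    ∃ (K : Submodule ℂ (Cm n)) (i : IE n p), ∃ δ > 0, ∃ G : Cm q × K → Cm n,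
      AnalyticOnNhd ℂ G (ball (F y, 0) δ) ∧
      (∀ a ∈ ball (F y, (0 : K)) δ, G a ∈ i.1.2.target ∧ i.1.2.symm (G a) ∈ U ∧
        F (i.1.2.symm (G a)) = a.1) ∧ i.1.2.symm (G (F y, 0)) = y ∧
      ∃ κ : E → K, ContinuousAt κ y ∧ κ y = 0 ∧
        ∀ᶠ y' in 𝓝 y, i.1.2.symm (G (F y', κ y')) = y' := by
  obtain ⟨e, ε, hε, hyε, -, -⟩ := exists_ch (n := n) hp y univ_mem
  have hs := (hε.reg_iff hp hB hyε).1 hy
  have hzt : ε y ∈ ε.target := ε.map_source hyε
  have hfa : AnalyticAt ℂ (F ∘ ε.symm) (ε y) :=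
    Vale.Agent.P268.analyticOnNhd_of_differentiableOn ε.open_target (hε.diff hB) _ hzt
  have hfy : (F ∘ ε.symm) (ε y) = F y := by rw [Function.comp_apply, ε.left_inv hyε]
  have hO : ε.target ∩ ε.symm ⁻¹' U ∈ 𝓝 (ε y) := by
    refine inter_mem (ε.open_target.mem_nhds hzt) ?_
    refine (ε.continuousAt_symm hzt).preimage_mem_nhds ?_
    rw [ε.left_inv hyε]
    exact hU
  obtain ⟨δ, hδ, G, hG, hGt, hG0, κ, hκ, hκ0, hκG⟩ := straight hfa hs _ hO
  rw [hfy] at hG hGt hG0
  refine ⟨_, ⟨(e, ε), hε⟩, δ, hδ, G, hG, fun a ha => ?_, ?_, fun y' => κ (ε y'), ?_, hκ0, ?_⟩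
  · obtain ⟨⟨h1, h2⟩, h3⟩ := hGt a ha
    exact ⟨h1, h2, h3⟩
  · show ε.symm (G (F y, 0)) = y
    rw [hG0, ε.left_inv hyε]
  · exact hκ.comp (ε.continuousAt hyε)
  · have h1 : ∀ᶠ y' in 𝓝 y, G ((F ∘ ε.symm) (ε y'), κ (ε y')) = ε y' :=
      (ε.continuousAt hyε).eventually hκG
    filter_upwards [h1, ε.open_source.mem_nhds hyε] with y' h2 h3
    rw [Function.comp_apply, ε.left_inv h3] at h2
    show ε.symm (G (F y', κ (ε y'))) = y'
    rw [h2, ε.left_inv h3]

omit [IsManifold 𝓘(ℂ, Cm n) ω X] in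
/-- the slices of the local form are in one component of the fibre -/
theorem slice {K : Submodule ℂ (Cm n)} {i : IE n p} {δ : ℝ} {G : Cm q × K → Cm n} {t₀ : Cm q}
    (hG : AnalyticOnNhd ℂ G (ball (t₀, 0) δ))
    (hGt : ∀ a ∈ ball (t₀, (0 : K)) δ, G a ∈ i.1.2.target ∧ F (i.1.2.symm (G a)) = a.1)
    {t : Cm q} (ht : t ∈ ball t₀ δ) {k k' : K} (hk : k ∈ ball (0 : K) δ) (hk' : k' ∈ ball (0 : K) δ) :
    Same F (i.1.2.symm (G (t, k))) (i.1.2.symm (G (t, k'))) := by
  have hm : ∀ l ∈ ball (0 : K) δ, (t, l) ∈ ball (t₀, (0 : K)) δ := fun l hl => by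
    rw [← ball_prod_same]
    exact ⟨ht, hl⟩
  have h1 : IsPreconnected ((fun l : K => i.1.2.symm (G (t, l))) '' ball (0 : K) δ) := by
    refine (convex_ball (0 : K) δ).isPreconnected.image _ ?_
    refine i.1.2.continuousOn_symm.comp (hG.continuousOn.comp (by fun_prop) hm) fun l hl =>
      (hGt _ (hm l hl)).1
  have h2 : ∀ l ∈ ball (0 : K) δ, F (i.1.2.symm (G (t, l))) = t := fun l hl => (hGt _ (hm l hl)).2
  show i.1.2.symm (G (t, k')) ∈ connectedComponentIn (F ⁻¹' {F (i.1.2.symm (G (t, k)))})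
    (i.1.2.symm (G (t, k)))
  rw [h2 k hk]
  refine h1.subset_connectedComponentIn ⟨k, hk, rfl⟩ ?_ ⟨k', hk', rfl⟩
  rintro _ ⟨l, hl, rfl⟩
  exact h2 l hl

/-- **maximum principle on the compact fibres** -/
theorem const_fib [T2Space E] (hp : IsCoveringMap p) {B : ℝ} (hB : HolB p w F B) (hFc : Continuous F)
    (hh : HolR n p F h) {y : E} (hy : F y ∈ RV n p F) (hc : IsCompact (F ⁻¹' {F y})) {y' : E}
    (hs : Same F y y') : h y' = h y := by
  set t := F y with ht
  set C : Set E := connectedComponentIn (F ⁻¹' {t}) y with hC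
  have hCF : ∀ x ∈ C, F x = t := fun x hx => connectedComponentIn_subset (F ⁻¹' {t}) y hx
  have hcont : ContinuousOn h C := by
    intro x hx
    obtain ⟨e, ε, hε, hxε, -, -⟩ := exists_ch (n := n) hp x univ_mem
    have h1 := (hh x (by rw [hCF x hx]; exact hy) ⟨(e, ε), hε⟩ hxε).continuousAt
    have h2 : ContinuousAt (fun x => h (ε.symm (ε x))) x :=
      ContinuousAt.comp (g := fun z => h (ε.symm z)) h1 (ε.continuousAt hxε)
    refine (h2.congr ?_).continuousWithinAt
    filter_upwards [ε.open_source.mem_nhds hxε] with x' hx'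
    rw [ε.left_inv hx']
  have hCc : IsCompact C := hc.of_isClosed_subset
    (isClosed_comp' hFc y) (connectedComponentIn_subset _ _)
  have hyC : y ∈ C := mem_connectedComponentIn rfl
  obtain ⟨x₀, hx₀, hmax⟩ := hCc.exists_isMaxOn ⟨y, hyC⟩ hcont.norm
  have hpre : IsPreconnected C := isPreconnected_connectedComponentIn
  -- local constancy at the maximum
  have hloc : ∀ x ∈ C, h x = h x₀ → ∀ᶠ x' in 𝓝[C] x, h x' = h x := by
    intro x hx hxx
    have hFx : F x = t := hCF x hx
    have hreg : Reg (n := n) p F x := hy x hFx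
    obtain ⟨K, i, δ, hδ, G, hG, hGt, hG0, κ, hκ, hκ0, hκG⟩ := fib_chart hp hB hreg univ_mem
    rw [hFx] at hG hGt hG0
    set g : K → ℂ := fun k => h (i.1.2.symm (G (t, k))) with hg
    have hsame : ∀ k ∈ ball (0 : K) δ, i.1.2.symm (G (t, k)) ∈ C := by
      intro k hk
      have h1 := slice hG (fun a ha => ⟨(hGt a ha).1, (hGt a ha).2.2⟩) (mem_ball_self hδ)
        (mem_ball_self hδ) hk
      rw [hG0] at h1
      have h2 : i.1.2.symm (G (t, k)) ∈ connectedComponentIn (F ⁻¹' {F x}) x := h1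
      rw [hFx, ← connectedComponentIn_eq hx] at h2
      exact h2
    have hd : ∀ᶠ k in 𝓝 (0 : K), DifferentiableAt ℂ g k := by
      filter_upwards [ball_mem_nhds (0 : K) hδ] with k hk
      have hm : (t, k) ∈ ball (t, (0 : K)) δ := by
        rw [← ball_prod_same]
        exact ⟨mem_ball_self hδ, hk⟩
      obtain ⟨h1, -, h2⟩ := hGt _ hm
      have h3 := hh (i.1.2.symm (G (t, k))) (by rw [h2]; exact hy) i (i.1.2.map_target h1)
      rw [i.1.2.right_inv h1] at h3
      have h4 : DifferentiableAt ℂ (fun k : K => G (t, k)) k :=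
        (hG _ hm).differentiableAt.comp k (by fun_prop)
      exact DifferentiableAt.comp (g := fun z => h (i.1.2.symm z)) k h3.differentiableAt h4
    have hlm : IsLocalMax (norm ∘ g) (0 : K) := by
      filter_upwards [ball_mem_nhds (0 : K) hδ] with k hk
      have h1 := hmax (hsame k hk)
      show ‖h (i.1.2.symm (G (t, k)))‖ ≤ ‖h (i.1.2.symm (G (t, 0)))‖
      rw [hG0, hxx]
      exact h1
    have h5 := Complex.eventually_eq_of_isLocalMax_norm hd hlm
    rw [← hκ0] at h5
    have h6 := hκ.eventually h5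
    filter_upwards [eventually_nhdsWithin_of_eventually_nhds h6,
      eventually_nhdsWithin_of_eventually_nhds hκG, self_mem_nhdsWithin] with x' h7 h8 h9
    have h10 : g (κ x') = h x' := by
      show h (i.1.2.symm (G (t, κ x'))) = h x'
      rw [hCF x' h9] at h8
      rw [h8]
    have h11 : g (κ x) = h x := by
      show h (i.1.2.symm (G (t, κ x))) = h x
      rw [hκ0, hG0]
    rw [← h10, ← h11]
    exact h7
  -- the set is open and closed
  have hall : ∀ x ∈ C, h x = h x₀ := by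
    have hPC : PreconnectedSpace C := Subtype.preconnectedSpace hpre
    set A : Set C := {x | h x = h x₀} with hA
    have hcl : IsClosed A :=
      isClosed_eq (continuousOn_iff_continuous_domRestrict.1 hcont) continuous_const
    have hop : IsOpen A := by
      rw [isOpen_iff_mem_nhds]
      rintro ⟨x, hx⟩ hxA
      have h1 := hloc x hx hxA
      rw [nhdsWithin_eq_map_subtype_coe hx, eventually_map] at h1
      filter_upwards [h1] with x' h2
      exact h2.trans hxA
    have h2 : A = univ := IsClopen.eq_univ ⟨hcl, hop⟩ ⟨⟨x₀, hx₀⟩, rfl⟩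
    intro x hx
    have h3 : (⟨x, hx⟩ : C) ∈ A := by rw [h2]; trivial
    exact h3
  rw [hall y' hs, hall y hyC]

/-- **a function which is holomorphic near the regular fibres is locally a function of `F`** -/
theorem hol_loc [T2Space E] (hp : IsCoveringMap p) {B : ℝ} (hB : HolB p w F B) (hFc : Continuous F)
    (hh : HolR n p F h) (hRV : IsOpen (RV n p F)) (hc : ∀ t, IsCompact (F ⁻¹' {t})) {y : E}
    (hy : F y ∈ RV n p F) :
    ∃ f : Cm q → ℂ, AnalyticAt ℂ f (F y) ∧ ∀ᶠ y' in 𝓝 y, h y' = f (F y') := by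
  obtain ⟨K, i, δ, hδ, G, hG, hGt, hG0, κ, hκ, hκ0, hκG⟩ := fib_chart hp hB (hy y rfl) univ_mem
  have hm : (F y, (0 : K)) ∈ ball (F y, (0 : K)) δ := mem_ball_self hδ
  refine ⟨fun t => h (i.1.2.symm (G (t, 0))), ?_, ?_⟩
  · obtain ⟨h1, -, h2⟩ := hGt _ hm
    have h3 := hh y hy i (by
      have := i.1.2.map_target h1
      rwa [hG0] at this)
    have h4 : i.1.2 y = G (F y, 0) := by
      rw [← i.1.2.right_inv h1, hG0]
    rw [h4] at h3
    have h5 : AnalyticAt ℂ (fun t : Cm q => G (t, 0)) (F y) :=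
      AnalyticAt.comp (g := G) (f := fun t : Cm q => (t, (0 : K))) (hG _ hm)
        (analyticAt_id.prod analyticAt_const)
    exact AnalyticAt.comp (g := fun z => h (i.1.2.symm z)) (f := fun t : Cm q => G (t, 0)) h3 h5
  · have h1 : ∀ᶠ y' in 𝓝 y, F y' ∈ ball (F y) δ := hFc.continuousAt.eventually (ball_mem_nhds _ hδ)
    have h2 : ∀ᶠ y' in 𝓝 y, F y' ∈ RV n p F := hFc.continuousAt.eventually (hRV.mem_nhds hy)
    have h3 : ∀ᶠ y' in 𝓝 y, κ y' ∈ ball (0 : K) δ := by
      have h4 := hκ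
      unfold ContinuousAt at h4
      rw [hκ0] at h4
      exact h4.eventually (ball_mem_nhds _ hδ)
    filter_upwards [h1, h2, h3, hκG] with y' h4 h5 h6 h7
    have h8 := slice hG (fun a ha => ⟨(hGt a ha).1, (hGt a ha).2.2⟩) h4 h6 (mem_ball_self hδ)
    rw [h7] at h8
    exact (const_fib hp hB hFc hh h5 (hc _) h8).symm

end

end Vale.Agent.P284.H383.K9
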