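import Vale.Agent.P284.H383.K9.P
import Vale.Agent.P284.H383.K9.L
import Vale.Agent.P284.H619.K.AlgD

/-!
# P284 (helper383), K9: a form in the kernel of the curvature is `h dF₁ ∧ … ∧ dF_q`
-/

open scoped Manifold ContDiff Topology ENNReal ComplexConjugate ComplexOrder
open Filter Set Metric MeasureTheory

noncomputable section

namespace Vale.Agent.P284.H383.K9

open Vale.Agent.P272.K Vale.Agent.P284.H894.G Vale.Agent.P284.H894.W Vale.Agent.P284.H494
  Vale.Agent.P284.H10 Vale.Agent.P284.H224 Vale.Agent.P284.H672 Vale.Agent.P284.H608.K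
  Vale.Agent.P284.H573.K9
open Vale.Agent.P284.H619.K (tL pv pv_tL wd wd_eq_zero eq_det)
open Vale.Agent.P272.K.QN (jm dz_comp_F dzb_comp_F jm_apply)

theorem dz_coord {n q : ℕ} {f : Cm n → Cm q} {z : Cm n} (hf : DifferentiableAt ℂ f z) (i : Fin n)
    (k : Fin q) : dz i (fun y => f y k) z = fderiv ℂ f z (Pi.single i 1) k := by
  rw [← jm_apply hf]
  rfl

theorem JJ_sq {n q : ℕ} {f : Cm n → Cm q} {z : Cm n} (hf : DifferentiableAt ℂ f z) :
    JJ f z = Vale.Agent.P284.H619.K.sq (tL (fderiv ℂ f z)) := by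
  ext i j
  show ∑ k, dz i (fun y => f y k) z * conj (dz j (fun y => f y k) z) =
    ∑ k, fderiv ℂ f z (Pi.single i 1) k * conj (fderiv ℂ f z (Pi.single j 1) k)
  refine Finset.sum_congr rfl fun k _ => ?_
  rw [dz_coord hf, dz_coord hf]

/-- a frame -/
theorem exists_frame {n q : ℕ} {L : Cm n →L[ℂ] Cm q} (hs : Function.Surjective L) :
    ∃ ξ : Fin q → Cm n, ∀ l j, L (ξ j) l = if l = j then 1 else 0 := by
  choose g hg using hs
  refine ⟨fun j => g (Pi.single j 1), fun l j => ?_⟩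
  rw [hg, Pi.single_apply]

theorem mnr_frame {n q : ℕ} {f : Cm n → Cm q} {z : Cm n} {ξ : Fin q → Cm n}
    (h : ∀ l j, fderiv ℂ f z (ξ j) l = if l = j then 1 else 0) : mnr f ξ z = 1 := by
  have h1 : (Matrix.of fun i j => fderiv ℂ f z (ξ j) i) = 1 := by
    ext i j
    rw [Matrix.of_apply, h, Matrix.one_apply]
  rw [H672.mnr, h1, Matrix.det_one]

/-- a form in the kernel of the curvature is a multiple of `f^* vol` -/
theorem ker_form {n q : ℕ} {w : Matrix (Fin n) (Fin n) ℂ} (hw : w.PosDef) {f : Cm n → Cm q}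
    {z : Cm n} (hf : DifferentiableAt ℂ f z) (hs : Function.Surjective (fderiv ℂ f z))
    {β : Matrix (Fin n) (Fin n) ℂ} {κ : ℝ} (hκ : 0 < κ) (hβ : (β - (κ : ℂ) • JJ f z).PosSemidef)
    {η : Af n q} (h0 : Ad w β η = 0) : ∃ c : ℂ, η = c • VV f z := by
  rw [JJ_sq hf] at hβ
  have h1 : ∀ l, wd (tL (fderiv ℂ f z) l) η = 0 := fun l =>
    wd_eq_zero hw hκ hβ (by rw [h0]; simp) l
  obtain ⟨ξ, hξ⟩ := exists_frame hs
  refine ⟨η ξ, ?_⟩
  ext v
  rw [eq_det h1 (fun l j => by rw [pv_tL]; exact hξ l j) v]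
  show _ = η ξ * (Matrix.of fun i => fderiv ℂ f z (v i)).det
  congr 2
  ext i l
  rw [Matrix.of_apply, pv_tL]
  rfl

section
variable {n : ℕ} {X : Type} [TopologicalSpace X] [ChartedSpace (Cm n) X] {E : Type}
  [TopologicalSpace E] {p : E → X} {w : Chart n X → Cm n → Matrix (Fin n) (Fin n) ℂ} {q : ℕ}
  {F : E → Cm q}

open Classical in
/-- the quotient `s / (dF₁ ∧ … ∧ dF_q)` -/
def quo (F : E → Cm q) (s : IE n p → Cm n → Af n q) (y : E) : ℂ :=
  if hc : ∃ c : ℂ, ∀ i : IE n p, y ∈ i.1.2.source → s i (i.1.2 y) = c • vf F i (i.1.2 y) then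
    hc.choose else 0

theorem quo_spec {s : IE n p → Cm n → Af n q} {y : E}
    (hc : ∃ c : ℂ, ∀ i : IE n p, y ∈ i.1.2.source → s i (i.1.2 y) = c • vf F i (i.1.2 y))
    (i : IE n p) (hi : y ∈ i.1.2.source) : s i (i.1.2 y) = quo F s y • vf F i (i.1.2 y) := by
  rw [quo, dif_pos hc]
  exact hc.choose_spec i hi

variable [IsManifold 𝓘(ℂ, Cm n) ω X]
  [MeasurableSpace E] (hp : IsCoveringMap p) (hw : IsKahler w) (hB : ∃ B, HolB p w F B)
  (μ : Measure E) (hμ : VolE p w μ)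

/-- the quotient exists at the regular points -/
theorem quo_ex {N : ℝ} (hN : 0 < N) (a : Cm q)
    {s : (kE hp hw hB (psi N a) (psi_smooth N a) μ hμ).Fm q}
    (hs : (kE hp hw hB (psi N a) (psi_smooth N a) μ hμ).IsForm s)
    (hA : ∀ i : IE n p, ∀ z ∈ i.1.2.target,
      Ad (w i.1.1 z) (cHess (fun z => psi N a (F (i.1.2.symm z))) z) (s i z) = 0)
    {y : E} (hy : Reg (n := n) p F y) :
    ∃ c : ℂ, ∀ i : IE n p, y ∈ i.1.2.source → s i (i.1.2 y) = c • vf F i (i.1.2 y) := by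
  obtain ⟨B, hB'⟩ := id hB
  set j : IE n p := ch n hp y with hj
  have hyj : y ∈ j.1.2.source := (exists_ch (n := n) hp y univ_mem).choose_spec.choose_spec.2.1
  have hzt := j.1.2.map_source hyj
  have hsj := (j.2.reg_iff hp hB' hyj).1 hy
  have hfa := F_an hB j hzt
  obtain ⟨c, hc⟩ := ker_form (w_pos hw j hzt) hfa.differentiableAt hsj
    (div_pos hN (pow_pos (lt_of_lt_of_le one_pos (one_le_den a _)) 2)) (psi_psh hN.le a hfa)
    (hA j _ hzt)
  refine ⟨c, fun i hi => ?_⟩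
  have h1 : s i (i.1.2 y) = (1 : ℂ) • (s j (j.1.2 y)).compContinuousLinearMap
    (fderiv ℂ (fun z => j.1.2 (i.1.2.symm z)) (i.1.2 y)) := hs.change i j y hi hyj
  rw [h1, one_smul, vf_change hB i j hi hyj, hc, vf_eq j hzt]
  rfl

omit [MeasurableSpace E] in
/-- the quotient is holomorphic near the regular fibres -/
theorem quo_hol (hRV : IsOpen (RV n p F)) (hFc : Continuous F) {s : IE n p → Cm n → Af n q}
    (hs : ∀ i : IE n p, ∀ z ∈ i.1.2.target, AnalyticAt ℂ (s i) z) (hp : IsCoveringMap p)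
    (hB : ∃ B, HolB p w F B)
    (hc : ∀ y, Reg (n := n) p F y → ∃ c : ℂ, ∀ i : IE n p, y ∈ i.1.2.source →
      s i (i.1.2 y) = c • vf F i (i.1.2 y)) : HolR n p F (quo F s) := by
  intro y hy i hyi
  obtain ⟨B, hB'⟩ := id hB
  have hzt := i.1.2.map_source hyi
  have hsj := (i.2.reg_iff hp hB' hyi).1 (hy y rfl)
  have hfa := F_an hB i hzt
  obtain ⟨ξ, hξ⟩ := exists_frame hsj
  have hm1 : mnr (fun z => F (i.1.2.symm z)) ξ (i.1.2 y) = 1 := mnr_frame hξ
  have hma := mnr_analytic (ξ := ξ) hfa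
  have hev : (fun z => quo F s (i.1.2.symm z)) =ᶠ[𝓝 (i.1.2 y)]
      fun z => s i z ξ / mnr (fun z => F (i.1.2.symm z)) ξ z := by
    have h1 : ∀ᶠ z in 𝓝 (i.1.2 y), mnr (fun z => F (i.1.2.symm z)) ξ z ≠ 0 :=
      hma.continuousAt.eventually_ne (by rw [hm1]; exact one_ne_zero)
    have h2 : ∀ᶠ z in 𝓝 (i.1.2 y), F (i.1.2.symm z) ∈ RV n p F := by
      have h3 := (i.1.2.continuousAt_symm hzt)
      have h4 : ContinuousAt (fun z => F (i.1.2.symm z)) (i.1.2 y) :=
        ContinuousAt.comp (g := F) hFc.continuousAt h3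
      unfold ContinuousAt at h4
      simp only [i.1.2.left_inv hyi] at h4
      exact h4.eventually (hRV.mem_nhds hy)
    filter_upwards [h1, h2, i.1.2.open_target.mem_nhds hzt] with z h3 h4 h5
    have h6 := quo_spec (hc _ (h4 _ rfl)) i (i.1.2.map_target h5)
    rw [i.1.2.right_inv h5] at h6
    rw [h6, vf_eq i h5]
    have h7 : (quo F s (i.1.2.symm z) • VV (fun z => F (i.1.2.symm z)) z) ξ =
        quo F s (i.1.2.symm z) * mnr (fun z => F (i.1.2.symm z)) ξ z := by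
      rw [← VV_mnr]
      rfl
    rw [h7, mul_div_cancel_right₀ _ h3]
  refine AnalyticAt.congr ?_ hev.symm
  have h8 : AnalyticAt ℂ (fun z => s i z ξ) (i.1.2 y) := by
    have h9 : AnalyticAt ℂ (fun A : Af n q => A ξ) (s i (i.1.2 y)) := by
      exact (ContinuousAlternatingMap.apply ℂ (Cm n) ℂ ξ).analyticAt _
    exact AnalyticAt.comp (g := fun A : Af n q => A ξ) h9 (hs i _ hzt)
  exact h8.div hma (by rw [hm1]; exact one_ne_zero)

end

end Vale.Agent.P284.H383.K9
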