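import Vale.Agent.P284.H383.K9.M
import Vale.Agent.P284.H286.K.EngD

/-!
# P284 (helper383), K9: the values of the quotient at two points
-/

open scoped Manifold ContDiff Topology ENNReal ComplexConjugate ComplexOrder
open Filter Set Metric MeasureTheory

noncomputable section

namespace Vale.Agent.P284.H383.K9

open Vale.Agent.P272.K Vale.Agent.P284.H894.G Vale.Agent.P284.H894.W Vale.Agent.P284.H494
  Vale.Agent.P284.H10 Vale.Agent.P284.H224 Vale.Agent.P284.H672 Vale.Agent.P284.H608.K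
  Vale.Agent.P284.H366.K Vale.Agent.P284.H573.K9

section
variable {n : ℕ} {X : Type} [TopologicalSpace X] [ChartedSpace (Cm n) X] {E : Type}
  [TopologicalSpace E] {p : E → X} {w : Chart n X → Cm n → Matrix (Fin n) (Fin n) ℂ} {r : ℕ}
  {F : E → Cm (r + 1)} [IsManifold 𝓘(ℂ, Cm n) ω X] [T2Space E]
  [MeasurableSpace E] [BorelSpace E] (hp : IsCoveringMap p) (hw : IsKahler w) (hB : ∃ B, HolB p w F B)
  (μ : Measure E) (hμ : VolE p w μ)

omit [T2Space E] [MeasurableSpace E] [BorelSpace E] [IsManifold 𝓘(ℂ, Cm n) ω X]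
  [TopologicalSpace X] [ChartedSpace (Cm n) X] [TopologicalSpace E] in
theorem exp_psi (N : ℕ) (a t : Cm (r + 1)) : Real.exp (-psi N a t) = ((d1 a t) ^ N)⁻¹ :=
  psi_exp N a t

/-- local lower bound of the norm, with the dependence on `N` -/
theorem low_N (i : IE n p) {z₀ : Cm n} {R : ℝ} (hR : closedBall z₀ R ⊆ i.1.2.target) (a : Cm (r + 1)) :
    ∃ C : ℝ, 0 < C ∧ ∀ (N : ℕ) (D : ℝ), (∀ z ∈ ball z₀ R, d1 a (F (i.1.2.symm z)) ≤ D) →
      K3Stmt n E (kN hp hw hB μ hμ N a) →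
      ∀ η : (kN hp hw hB μ hμ N a).Fm (r + 1), (kN hp hw hB μ hμ N a).IsForm η →
        (kN hp hw hB μ hμ N a).Smooth η →
      ∫⁻ z in ball z₀ R, ENNReal.ofReal (‖η i z‖ ^ 2) ≤
        ENNReal.ofReal (C * D ^ N) * (kN hp hw hB μ hμ N a).nl η := by
  obtain ⟨c, C₁, hc, hC₁, hwt⟩ := wt_bounds (k0 hp hw hB μ hμ) i hR
  obtain ⟨c', B', hc', hB', hb⟩ := hn_bounds k1 (isCompact_closedBall z₀ R)
    (fun z hz => (k0 hp hw hB μ hμ).wsm i z (hR hz)) (fun z hz => (k0 hp hw hB μ hμ).wpos i z (hR hz))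
    (r + 1)
  refine ⟨c'⁻¹ * c, by positivity, fun N D hD h3 η hη hs => ?_⟩
  have hsub : ball z₀ R ⊆ i.1.2.target := ball_subset_closedBall.trans hR
  have hD0 : ∀ z ∈ ball z₀ R, 0 < D := fun z hz => (d1_pos _ _).trans_le (hD z hz)
  rcases (ball z₀ R).eq_empty_or_nonempty with he | ⟨z₁, hz₁⟩
  · rw [he]
    simp
  have hDp : 0 < D := hD0 z₁ hz₁
  have h1 : ContinuousOn (fun x => ENNReal.ofReal ((kN hp hw hB μ hμ N a).dn η η x).re) i.1.2.source :=
    ENNReal.continuous_ofReal.comp_continuousOn (dn_cont h3 hη hs i)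
  have h2 := piece (kN hp hw hB μ hμ N a) i isOpen_ball hsub h1
  have key : ∀ z ∈ ball z₀ R, ‖η i z‖ ^ 2 ≤ c'⁻¹ * c * D ^ N *
      (((kN hp hw hB μ hμ N a).dn η η (i.1.2.symm z)).re * (w i.1.1 z).det.re) := by
    intro z hz
    have hzt := hsub hz
    have e1 : ((kN hp hw hB μ hμ N a).dn η η (i.1.2.symm z)).re =
        Real.exp (-psi N a (F (i.1.2.symm z))) * (hn (w i.1.1 z) (η i z) (η i z)).re :=
      dn_symm h3 hη i hzt
    have h4 : c' * ‖η i z‖ ^ 2 ≤ (hn (w i.1.1 z) (η i z) (η i z)).re :=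
      (hb z (ball_subset_closedBall hz) (η i z)).1
    have h5 : 1 ≤ c * (Real.exp (-0) * (w i.1.1 z).det.re) := (hwt z hz).1
    rw [neg_zero, Real.exp_zero, one_mul] at h5
    have h6 : 1 ≤ D ^ N * Real.exp (-psi N a (F (i.1.2.symm z))) := by
      rw [exp_psi, ← div_eq_mul_inv, one_le_div (pow_pos (d1_pos a _) N)]
      exact pow_le_pow_left₀ (d1_pos a _).le (hD z hz) N
    rw [e1]
    set H := (hn (w i.1.1 z) (η i z) (η i z)).re with hH
    have hH0 : 0 ≤ H := hn_self_nonneg k1 (w_pos hw i hzt) _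
    set dt := (w i.1.1 z).det.re with hdt
    set ex := Real.exp (-psi N a (F (i.1.2.symm z))) with hex
    have h7 : ‖η i z‖ ^ 2 ≤ c'⁻¹ * H := by
      rw [← div_eq_inv_mul, le_div_iff₀ hc', mul_comm]
      exact h4
    have h8 : 1 ≤ (c * dt) * (D ^ N * ex) := one_le_mul_of_one_le_of_one_le h5 h6
    calc ‖η i z‖ ^ 2 ≤ c'⁻¹ * H := h7
      _ = c'⁻¹ * H * 1 := (mul_one _).symm
      _ ≤ c'⁻¹ * H * ((c * dt) * (D ^ N * ex)) :=
          mul_le_mul_of_nonneg_left h8 (mul_nonneg (inv_pos.2 hc').le hH0)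
      _ = _ := by ring
  calc ∫⁻ z in ball z₀ R, ENNReal.ofReal (‖η i z‖ ^ 2)
      ≤ ∫⁻ z in ball z₀ R, ENNReal.ofReal (c'⁻¹ * c * D ^ N) *
          (ENNReal.ofReal ((kN hp hw hB μ hμ N a).dn η η (i.1.2.symm z)).re *
            ENNReal.ofReal ((w i.1.1 z).det.re)) := by
        refine setLIntegral_mono' measurableSet_ball fun z hz => ?_
        have h9 : 0 ≤ ((kN hp hw hB μ hμ N a).dn η η (i.1.2.symm z)).re := dn_nonneg k1 η _
        rw [← ENNReal.ofReal_mul h9, ← ENNReal.ofReal_mul (by positivity)]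
        exact ENNReal.ofReal_le_ofReal (key z hz)
    _ = ENNReal.ofReal (c'⁻¹ * c * D ^ N) *
          ∫⁻ z in ball z₀ R, (ENNReal.ofReal ((kN hp hw hB μ hμ N a).dn η η (i.1.2.symm z)).re *
            ENNReal.ofReal ((w i.1.1 z).det.re)) :=
        lintegral_const_mul' _ _ ENNReal.ofReal_ne_top
    _ ≤ _ := by
        gcongr
        refine h2.symm.le.trans ?_
        exact lintegral_mono' Measure.restrict_le_self le_rfl

/-- the form `s₀` on the manifold `kN` -/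
def S0 (N : ℝ) (a : Cm (r + 1)) (g : E → ℝ) : (kN hp hw hB μ hμ N a).Fm (r + 1) := s0 F g

/-- **the value of the quotient at a point where `g` is constant** -/
theorem peak (h3 : ∀ (N : ℕ) (a : Cm (r + 1)), K3Stmt n E (kN hp hw hB μ hμ N a)) {g : E → ℝ}
    (hg : LocF F g) {x₀ : E} {b : ℝ} (hgb : ∀ᶠ x in 𝓝 x₀, g x = b)
    (hreg : Reg (n := n) p F x₀) {D : ℝ} (hD : 1 < D) {a : Cm (r + 1)} (ha : F x₀ = a) :
    ∃ C : ℝ, 0 ≤ C ∧ ∀ (N : ℕ) (s : (kN hp hw hB μ hμ N a).Fm (r + 1)) (C₀ : ℝ), 0 ≤ C₀ →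
      (kN hp hw hB μ hμ N a).IsForm s → (kN hp hw hB μ hμ N a).Hol s →
      (∃ c : ℂ, ∀ i : IE n p, x₀ ∈ i.1.2.source → s i (i.1.2 x₀) = c • vf F i (i.1.2 x₀)) →
      (kN hp hw hB μ hμ N a).nl (s - S0 hp hw hB μ hμ N a g) ≤ ENNReal.ofReal C₀ →
      ‖quo F s x₀ - b‖ ^ 2 ≤ C * D ^ N * C₀ := by
  obtain ⟨B, hB'⟩ := id hB
  set i : IE n p := ch n hp x₀ with hi
  have hxi : x₀ ∈ i.1.2.source := (exists_ch (n := n) hp x₀ univ_mem).choose_spec.choose_spec.2.1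
  set z₀ : Cm n := i.1.2 x₀ with hz₀
  have hzt : z₀ ∈ i.1.2.target := i.1.2.map_source hxi
  have hsx : i.1.2.symm z₀ = x₀ := i.1.2.left_inv hxi
  have hsj := (i.2.reg_iff hp hB' hxi).1 hreg
  have hfa : AnalyticAt ℂ (fun z => F (i.1.2.symm z)) z₀ := F_an hB i hzt
  obtain ⟨ξ, hξ⟩ := exists_frame hsj
  have hm1 : H672.mnr (fun z => F (i.1.2.symm z)) ξ z₀ = 1 := mnr_frame hξ
  -- the radius
  have hev : ∀ᶠ z in 𝓝 z₀, z ∈ i.1.2.target ∧ d1 a (F (i.1.2.symm z)) ≤ D ∧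
      g (i.1.2.symm z) = b := by
    have h1 : ContinuousAt (fun z => d1 a (F (i.1.2.symm z))) z₀ := by
      have h2 : Continuous (d1 a) := by
        unfold d1
        fun_prop
      exact ContinuousAt.comp (g := d1 a) h2.continuousAt hfa.continuousAt
    have h2 : d1 a (F (i.1.2.symm z₀)) < D := by
      rw [hsx, ha]
      unfold d1
      simpa using hD
    have h3 : ∀ᶠ z in 𝓝 z₀, g (i.1.2.symm z) = b := by
      have h4 := i.1.2.continuousAt_symm hzt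
      unfold ContinuousAt at h4
      rw [hsx] at h4
      exact h4.eventually hgb
    filter_upwards [i.1.2.open_target.mem_nhds hzt, h1.eventually_lt_const h2, h3] with z h4 h5 h6
    exact ⟨h4, h5.le, h6⟩
  obtain ⟨R, hR, hball⟩ := Metric.nhds_basis_closedBall.eventually_iff.1 hev
  obtain ⟨C, hC, hlow⟩ := low_N hp hw hB μ hμ i (fun z hz => (hball hz).1) a (z₀ := z₀) (R := R)
  set P : ℝ := (∏ j, ‖ξ j‖) ^ 2 with hP
  set v : ℝ := (volume (ball z₀ R)).toReal with hv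
  have hvol0 : volume (ball z₀ R) ≠ 0 := (measure_ball_pos volume _ hR).ne'
  have hvolt : volume (ball z₀ R) ≠ ⊤ := measure_ball_lt_top.ne
  have hv0 : 0 < v := ENNReal.toReal_pos hvol0 hvolt
  refine ⟨P * C / v, by positivity, fun N s C₀ hC₀ hf hh hc hle => ?_⟩
  have hs0f := s0_form hp hw hB (psi N a) (psi_smooth N a) μ hμ g
  have hs0s := s0_smooth hp hw hB (psi N a) (psi_smooth N a) μ hμ hg
  have h5 := hlow N D (fun z hz => (hball (ball_subset_closedBall hz)).2.1) (h3 N a) (s - S0 hp hw hB μ hμ N a g)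
    (H286.K.form_sub hf hs0f) (H286.K.smooth_sub (H286.K.smooth_of_hol hh) hs0s)
  set ψ : Cm n → ℂ := fun z => s i z ξ - (b : ℂ) * VV (fun z => F (i.1.2.symm z)) z ξ with hψ
  have hψe : ∀ z ∈ ball z₀ R, ψ z = (s - S0 hp hw hB μ hμ N a g) i z ξ := by
    intro z hz
    obtain ⟨h6, h7, h8⟩ := hball (ball_subset_closedBall hz)
    show _ = s i z ξ - ((g (i.1.2.symm z) : ℝ) : ℂ) * vf F i z ξ
    rw [h8, vf_eq i h6]
  have hev1 : ∀ (A : Cm n → Af n (r + 1)) (z : Cm n), AnalyticAt ℂ A z →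
      AnalyticAt ℂ (fun z => A z ξ) z := fun A z hA =>
    AnalyticAt.comp (g := fun A : Af n (r + 1) => A ξ)
      ((ContinuousAlternatingMap.apply ℂ (Cm n) ℂ ξ).analyticAt _) hA
  have hψd : DifferentiableOn ℂ ψ (ball z₀ R) := by
    intro z hz
    obtain ⟨h6, h7, h8⟩ := hball (ball_subset_closedBall hz)
    exact ((hev1 _ z (hh i z h6)).sub (analyticAt_const.mul
      (hev1 _ z (VV_analytic (F_an hB i h6))))).differentiableAt.differentiableWithinAt
  have h6 := Vale.Agent.P271.H408.enorm_sq_mul_volume_le hψd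
  have h7 : ∫⁻ z in ball z₀ R, ‖ψ z‖ₑ ^ 2 ≤
      ENNReal.ofReal P * ∫⁻ z in ball z₀ R, ENNReal.ofReal (‖(s - S0 hp hw hB μ hμ N a g) i z‖ ^ 2) := by
    rw [← lintegral_const_mul' _ _ ENNReal.ofReal_ne_top]
    refine setLIntegral_mono' measurableSet_ball fun z hz => ?_
    rw [hψe z hz, ← ofReal_sq_norm, ← ENNReal.ofReal_mul (by positivity)]
    refine ENNReal.ofReal_le_ofReal ?_
    have h8 := ContinuousAlternatingMap.le_opNorm ((s - S0 hp hw hB μ hμ N a g) i z) ξ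
    calc ‖(s - S0 hp hw hB μ hμ N a g) i z ξ‖ ^ 2 ≤ (‖(s - S0 hp hw hB μ hμ N a g) i z‖ * ∏ j, ‖ξ j‖) ^ 2 :=
          pow_le_pow_left₀ (norm_nonneg _) h8 2
      _ = _ := by rw [hP]; ring
  have hψ0 : ψ z₀ = quo F s x₀ - b := by
    have h8 := quo_spec hc i hxi
    show s i z₀ ξ - _ = _
    rw [h8, vf_eq i hzt]
    show quo F s x₀ * VV (fun z => F (i.1.2.symm z)) z₀ ξ - b * _ = _
    rw [VV_mnr, hm1, mul_one, mul_one]
  rw [hψ0, ← ofReal_sq_norm] at h6
  have h9 : ENNReal.ofReal (‖quo F s x₀ - b‖ ^ 2) * volume (ball z₀ R) ≤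
      ENNReal.ofReal (P * (C * D ^ N * C₀)) := by
    refine h6.trans (h7.trans ?_)
    rw [ENNReal.ofReal_mul (p := P) (by positivity)]
    gcongr
    refine h5.trans ?_
    rw [ENNReal.ofReal_mul (p := C * D ^ N) (by positivity)]
    gcongr
  rw [← ENNReal.ofReal_toReal hvolt, ← ENNReal.ofReal_mul (by positivity)] at h9
  have h10 := (ENNReal.ofReal_le_ofReal_iff (by positivity)).1 h9
  rw [← hv] at h10
  rw [← le_div_iff₀ hv0] at h10
  refine h10.trans (le_of_eq ?_)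
  ring

end

end Vale.Agent.P284.H383.K9
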