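import Vale.Agent.P284.H383.K9.G
import Vale.Agent.P284.H573.K9.Cut
import Mathlib.Analysis.Calculus.BumpFunction.FiniteDimension

/-!
# P284 (helper383), K9: the pairing of `S s₀` with test forms, integrated
-/

open scoped Manifold ContDiff Topology ENNReal ComplexConjugate ComplexOrder
open Filter Set Metric MeasureTheory

noncomputable section

namespace Vale.Agent.P284.H383.K9

open Vale.Agent.P272.K Vale.Agent.P284.H894.G Vale.Agent.P284.H894.W Vale.Agent.P284.H494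
  Vale.Agent.P284.H10 Vale.Agent.P284.H224 Vale.Agent.P284.H672 Vale.Agent.P284.H608.K
  Vale.Agent.P284.H366.K Vale.Agent.P284.H573.K9
open Vale.Agent.P272.K.QN (jm dz_comp_F dzb_comp_F jm_apply)

section
variable {q : ℕ}

/-- the square of the gradient -/
def gr (χ : Cm q → ℝ) (t : Cm q) : ℝ := ∑ k, ‖dz k (fun t => (χ t : ℂ)) t‖ ^ 2

theorem gr_nonneg (χ : Cm q → ℝ) (t : Cm q) : 0 ≤ gr χ t := by unfold gr; positivity

theorem gr_zero {χ : Cm q → ℝ} {t : Cm q} {c : ℝ} (h : χ =ᶠ[𝓝 t] fun _ => c) : gr χ t = 0 := by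
  unfold gr
  refine Finset.sum_eq_zero fun k _ => ?_
  have h1 : (fun t => (χ t : ℂ)) =ᶠ[𝓝 t] fun _ => (c : ℂ) := by
    filter_upwards [h] with x hx
    rw [hx]
  have h2 : dz k (fun t => (χ t : ℂ)) t = 0 := by
    unfold dz
    rw [h1.fderiv_eq]
    simp
  rw [h2]
  simp

theorem gr_cont {χ : Cm q → ℝ} (hχ : ContDiff ℝ ∞ χ) : Continuous (gr χ) := by
  have h1 : ContDiff ℝ ∞ (fun t => (χ t : ℂ)) := Complex.ofRealCLM.contDiff.comp hχ
  have h2 : Continuous (fderiv ℝ (fun t => (χ t : ℂ))) := h1.continuous_fderiv (by simp)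
  unfold gr
  refine continuous_finsetSum _ fun k _ => (Continuous.norm ?_).pow 2
  unfold dz
  fun_prop

theorem gr_bd {χ : Cm q → ℝ} (hχ : ContDiff ℝ ∞ χ) (a : Cm q) (R : ℝ) :
    ∃ M, 0 ≤ M ∧ ∀ t ∈ closedBall a R, gr χ t ≤ M := by
  obtain ⟨M, hM⟩ := (isCompact_closedBall a R).exists_bound_of_continuousOn
    (gr_cont hχ).continuousOn
  refine ⟨|M|, abs_nonneg _, fun t ht => ?_⟩
  exact (le_abs_self _).trans ((hM t ht).trans (le_abs_self _))

/-- the cut-off of `s₀` -/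
def b1 (a : Cm q) {r₀ : ℝ} (h : 0 < r₀) : ContDiffBump a := ⟨r₀ / 4, r₀ / 2, by linarith, by linarith⟩

/-- a cut-off, `1` on the support of `b1` -/
def b2 (a : Cm q) {r₀ : ℝ} (h : 0 < r₀) : ContDiffBump a :=
  ⟨r₀ / 2, 3 * r₀ / 4, by linarith, by linarith⟩

theorem b_zero {a : Cm q} (b : ContDiffBump a) : ∀ t, b.rOut < ‖t - a‖ → b t = 0 := fun t ht =>
  b.zero_of_le_dist (by rw [dist_eq_norm]; exact ht.le)

theorem b_ev_zero {a : Cm q} (b : ContDiffBump a) {t : Cm q} (ht : b.rOut < ‖t - a‖) :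
    (b : Cm q → ℝ) =ᶠ[𝓝 t] fun _ => (0 : ℝ) := by
  have h1 : ∀ᶠ s in 𝓝 t, b.rOut < ‖s - a‖ :=
    ((continuous_id.sub continuous_const).norm.continuousAt).eventually_const_lt ht
  filter_upwards [h1] with s hs using b_zero b s hs

theorem b_ev_one {a : Cm q} (b : ContDiffBump a) {t : Cm q} (ht : ‖t - a‖ < b.rIn) :
    (b : Cm q → ℝ) =ᶠ[𝓝 t] fun _ => (1 : ℝ) := by
  have h1 : ∀ᶠ s in 𝓝 t, ‖s - a‖ < b.rIn :=
    ((continuous_id.sub continuous_const).norm.continuousAt).eventually_lt_const ht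
  filter_upwards [h1] with s hs
  exact b.one_of_mem_closedBall (by rw [mem_closedBall_iff_norm]; exact hs.le)

end

section
variable {n : ℕ} {X : Type} [TopologicalSpace X] [ChartedSpace (Cm n) X] {E : Type}
  [TopologicalSpace E] {p : E → X} {w : Chart n X → Cm n → Matrix (Fin n) (Fin n) ℂ} {q : ℕ}
  {F : E → Cm q} [IsManifold 𝓘(ℂ, Cm n) ω X]
  [MeasurableSpace E] (hp : IsCoveringMap p) (hw : IsKahler w) (hB : ∃ B, HolB p w F B)
  (ψ : Cm q → ℝ) (hψ : ContDiff ℝ ∞ ψ) (μ : Measure E) (hμ : VolE p w μ)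

theorem s0_test {g : E → ℝ} (hg : LocF F g) {C : Set E} (hC : IsCompact C)
    (h0 : ∀ x, x ∉ C → g x = 0) : (kE hp hw hB ψ hψ μ hμ).Test (s0 F g) where
  form := s0_form hp hw hB ψ hψ μ hμ g
  smooth := s0_smooth hp hw hB ψ hψ μ hμ hg
  supp := ⟨C, hC, fun i x hx hxC => by
    have hx' : x ∈ i.1.2.source := hx
    show s0 F g i (i.1.2 x) = 0
    unfold s0
    rw [i.1.2.left_inv hx', h0 x hxC, Complex.ofReal_zero]
    ext v
    exact zero_mul (vf F i (i.1.2 x) v)⟩

omit [IsManifold 𝓘(ℂ, Cm n) ω X] [MeasurableSpace E] in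
theorem w_pos (hw : IsKahler w) (i : IE n p) {z : Cm n} (hz : z ∈ i.1.2.target) :
    (w i.1.1 z).PosDef := by
  obtain ⟨h1, h2⟩ := ch_at i.2 hz
  have := hw.posDef i.1.1 _ h1
  rwa [h2] at this

theorem dn_s0 (g : E → ℝ) (x : E) :
    (kE hp hw hB ψ hψ μ hμ).dn (s0 F g) (s0 F g) x =
      ((Real.exp (-ψ (F x)) * (g x ^ 2 * den w F ((kE hp hw hB ψ hψ μ hμ).ix x) x) : ℝ) : ℂ) := by
  set i : IE n p := (kE hp hw hB ψ hψ μ hμ).ix x with hi
  have hx : x ∈ i.1.2.source := ((kE hp hw hB ψ hψ μ hμ).cover x).choose_spec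
  have hzt : i.1.2 x ∈ i.1.2.target := i.1.2.map_source hx
  have hsx : i.1.2.symm (i.1.2 x) = x := i.1.2.left_inv hx
  have hwp := w_pos hw i hzt
  show (Real.exp (-ψ (F (i.1.2.symm (i.1.2 x)))) : ℂ) *
    hn (w i.1.1 (i.1.2 x)) (s0 F g i (i.1.2 x)) (s0 F g i (i.1.2 x)) = _
  rw [hsx]
  unfold s0
  rw [hsx, hn_smul_left, hn_smul_right, Complex.conj_ofReal]
  have h1 : hn (w i.1.1 (i.1.2 x)) (vf F i (i.1.2 x)) (vf F i (i.1.2 x)) = ((den w F i x : ℝ) : ℂ) := by
    have h2 := k1.conj_symm n q _ hwp (vf F i (i.1.2 x)) (vf F i (i.1.2 x))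
    exact (Complex.conj_eq_iff_re.1 h2.symm).symm
  rw [h1]
  push_cast
  ring

end

section
variable {n : ℕ} {X : Type} [TopologicalSpace X] [ChartedSpace (Cm n) X] {E : Type}
  [TopologicalSpace E] {p : E → X} {w : Chart n X → Cm n → Matrix (Fin n) (Fin n) ℂ} {r : ℕ}
  {F : E → Cm (r + 1)} [IsManifold 𝓘(ℂ, Cm n) ω X] [T2Space E]
  [MeasurableSpace E] [BorelSpace E] (hp : IsCoveringMap p) (hw : IsKahler w) (hB : ∃ B, HolB p w F B)
  (μ : Measure E) (hμ : VolE p w μ)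

/-- **the pairing of `S s₀` with test forms** -/
theorem pair_glob (hFc : Continuous F) {O₁ O₂ : Set E} (h1 : IsOpen O₁) (h2 : IsOpen O₂)
    (hd : Disjoint O₁ O₂) {a : Cm (r + 1)} {r₀ : ℝ} (hr : 0 < r₀)
    (hb : F ⁻¹' ball a r₀ ⊆ O₁ ∪ O₂) (hprop : ∀ R, IsCompact (F ⁻¹' closedBall a R))
    (hK0 : K3Stmt n E (k0 hp hw hB μ hμ)) :
    ∃ I₀ : ℝ, 0 ≤ I₀ ∧ ∀ N : ℕ, 1 ≤ N → K3Stmt n E (kN hp hw hB μ hμ N a) →
      ∀ τ : (kN hp hw hB μ hμ N a).Fm r, (kN hp hw hB μ hμ N a).Test τ →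
      ‖(kN hp hw hB μ hμ N a).ip τ ((kN hp hw hB μ hμ N a).S (s0 F (gcut F O₁ (b1 a hr))))‖ ^ 2 ≤
        I₀ * ((1 + (r₀ / 4) ^ 2) ^ N)⁻¹ * ∫ x, (kN hp hw hB μ hμ N a).dA τ x ∂μ := by
  set β : E → ℝ := fun x => b2 a hr (F x) with hβ
  have hβl : LocF F β := fun y => ⟨b2 a hr, (b2 a hr).contDiff.contDiffAt, Eventually.of_forall fun x => rfl⟩
  have hβt : (k0 hp hw hB μ hμ).Test (s0 F β) := by
    refine s0_test hp hw hB _ _ μ hμ hβl (hprop r₀) fun x hx => ?_
    refine b_zero (b2 a hr) _ ?_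
    have h3 : ¬ F x ∈ closedBall a r₀ := hx
    rw [mem_closedBall_iff_norm, not_le] at h3
    show 3 * r₀ / 4 < _
    linarith
  have hI := (hK0.int (r + 1) (s0 F β) (s0 F β) hβt hβt.form hβt.smooth).1
  have hI' : Integrable (fun x => β x ^ 2 * den w F ((k0 hp hw hB μ hμ).ix x) x) μ := by
    refine hI.re.congr (Eventually.of_forall fun x => ?_)
    show RCLike.re ((k0 hp hw hB μ hμ).dn (s0 F β) (s0 F β) x) = _
    rw [dn_s0 hp hw hB (fun _ => 0) contDiff_const μ hμ β x]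
    show (((Real.exp (-0) * (β x ^ 2 * den w F ((k0 hp hw hB μ hμ).ix x) x) : ℝ) : ℂ)).re = _
    rw [Complex.ofReal_re, neg_zero, Real.exp_zero, one_mul]
  have hden : ∀ x, 0 ≤ den w F ((k0 hp hw hB μ hμ).ix x) x := by
    intro x
    set i : IE n p := (k0 hp hw hB μ hμ).ix x with hi
    have hx : x ∈ i.1.2.source := ((k0 hp hw hB μ hμ).cover x).choose_spec
    exact hn_self_nonneg k1 (w_pos hw i (i.1.2.map_source hx)) _
  obtain ⟨M, hM0, hM⟩ := gr_bd (b1 a hr).contDiff a r₀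
  set D : E → ℝ := fun x => β x ^ 2 * den w F ((k0 hp hw hB μ hμ).ix x) x with hD
  have hD0 : ∀ x, 0 ≤ D x := fun x => mul_nonneg (sq_nonneg _) (hden x)
  set d2 : ℝ := 1 + (r + 1 : ℕ) * r₀ ^ 2 with hd2
  refine ⟨M * d2 ^ 2 * ∫ x, D x ∂μ, mul_nonneg (mul_nonneg hM0 (sq_nonneg _))
    (integral_nonneg hD0), ?_⟩
  intro N hN hKN τ hτ
  have hN0 : (0 : ℝ) < N := by exact_mod_cast hN
  set E₀ : ℝ := ((1 + (r₀ / 4) ^ 2) ^ N)⁻¹ with hE0
  have hE0p : 0 < E₀ := by positivity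
  have hA := (hKN.intT r τ hτ).2
  have hdA : ∀ x, 0 ≤ (kN hp hw hB μ hμ N a).dA τ x := by
    intro x
    set i : IE n p := (kN hp hw hB μ hμ N a).ix x with hi
    have hx : x ∈ i.1.2.source := ((kN hp hw hB μ hμ N a).cover x).choose_spec
    have hzt := i.1.2.map_source hx
    have h8 := psi_psh hN0.le a (F_an hB i hzt)
    have h9 := JJ_psd (F_an hB i hzt).differentiableAt
    have h10 := h8.add (h9.smul (show (0 : ℂ) ≤ ((N / (1 + ∑ k, ‖F (i.1.2.symm (i.1.2 x)) k - a k‖ ^ 2) ^ 2 : ℝ) : ℂ) by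
      rw [Complex.zero_le_real]; positivity))
    rw [sub_add_cancel] at h10
    have h11 := k1.mono n r (w i.1.1 (i.1.2 x)) 0 _ (w_pos hw i hzt) (by rw [sub_zero]; exact h10)
      (τ i (i.1.2 x))
    have h12 : Ad (w i.1.1 (i.1.2 x)) 0 (τ i (i.1.2 x)) = 0 := by
      unfold Ad
      simp
    rw [h12] at h11
    exact mul_nonneg (Real.exp_pos _).le (Complex.le_def.1 h11).1
  have key := int_cs (μ := μ)
    (u := (kN hp hw hB μ hμ N a).dn τ ((kN hp hw hB μ hμ N a).S (s0 F (gcut F O₁ (b1 a hr)))))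
    (a := (kN hp hw hB μ hμ N a).dA τ) (m := fun x => M * d2 ^ 2 * E₀ * D x) hdA
    (fun x => mul_nonneg (mul_nonneg (mul_nonneg hM0 (sq_nonneg _)) hE0p.le) (hD0 x)) hA
    (hI'.const_mul _) ?_
  · rw [integral_const_mul] at key
    refine key.trans (le_of_eq ?_)
    ring
  · intro x
    have hAx := hdA x
    -- the trivial case
    have triv : gcut F O₁ (b1 a hr) =ᶠ[𝓝 x] (fun _ => 0) →
        ‖(kN hp hw hB μ hμ N a).dn τ ((kN hp hw hB μ hμ N a).S (s0 F (gcut F O₁ (b1 a hr)))) x‖ ^ 2 ≤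
          (kN hp hw hB μ hμ N a).dA τ x * (M * d2 ^ 2 * E₀ * D x) := by
      intro h
      have h3 := pair_pt hp hw hB μ hμ (g := gcut F O₁ (b1 a hr)) x hN0 a (C := 0) le_rfl
        ⟨fun _ => 0, contDiffAt_const, h, (gr_zero (Eventually.of_forall fun _ => rfl)).le⟩ τ
      refine h3.trans ?_
      rw [zero_mul, zero_div, zero_mul, zero_mul]
      exact mul_nonneg hAx (mul_nonneg (mul_nonneg (mul_nonneg hM0 (sq_nonneg _)) hE0p.le) (hD0 x))
    by_cases hx1 : x ∈ O₁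
    · have hloc : gcut F O₁ (b1 a hr) =ᶠ[𝓝 x] fun y => b1 a hr (F y) := by
        filter_upwards [h1.mem_nhds hx1] with y hy using if_pos hy
      have h3 := pair_pt hp hw hB μ hμ (g := gcut F O₁ (b1 a hr)) x hN0 a
        (C := gr (b1 a hr) (F x)) (gr_nonneg _ _) ⟨b1 a hr, (b1 a hr).contDiff.contDiffAt, hloc, le_rfl⟩ τ
      rcases lt_or_ge (‖F x - a‖) (r₀ / 4) with h4 | h4
      · have h5 : gr (b1 a hr) (F x) = 0 := gr_zero (b_ev_one (b1 a hr) h4)
        rw [h5, zero_mul, zero_div, zero_mul, zero_mul] at h3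
        exact h3.trans (mul_nonneg hAx (mul_nonneg (mul_nonneg (mul_nonneg hM0 (sq_nonneg _)) hE0p.le)
          (hD0 x)))
      · rcases lt_or_ge (r₀ / 2) (‖F x - a‖) with h6 | h6
        · have h5 : gr (b1 a hr) (F x) = 0 := gr_zero (b_ev_zero (b1 a hr) h6)
          rw [h5, zero_mul, zero_div, zero_mul, zero_mul] at h3
          exact h3.trans (mul_nonneg hAx (mul_nonneg (mul_nonneg (mul_nonneg hM0 (sq_nonneg _))
            hE0p.le) (hD0 x)))
        · refine h3.trans ?_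
          have e1 : β x = 1 := (b2 a hr).one_of_mem_closedBall (by
            rw [mem_closedBall_iff_norm]; exact h6)
          have e2 : D x = den w F ((k0 hp hw hB μ hμ).ix x) x := by
            rw [hD]; simp only [e1, one_pow, one_mul]
          have e3 : gr (b1 a hr) (F x) ≤ M := hM _ (by rw [mem_closedBall_iff_norm]; linarith)
          have e4 : d1 a (F x) ≤ d2 := by
            unfold d1
            rw [hd2]
            have : ∑ k, ‖F x k - a k‖ ^ 2 ≤ ∑ _k : Fin (r + 1), r₀ ^ 2 := by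
              refine Finset.sum_le_sum fun k _ => pow_le_pow_left₀ (norm_nonneg _) ?_ 2
              refine (norm_le_pi_norm (F x - a) k).trans ?_
              linarith
            rw [Finset.sum_const, Finset.card_univ, Fintype.card_fin, nsmul_eq_mul] at this
            linarith
          have e5 : Real.exp (-psi N a (F x)) ≤ E₀ := by
            rw [psi_exp, hE0]
            refine inv_anti₀ (by positivity) (pow_le_pow_left₀ (by positivity) ?_ N)
            have h7 : ‖F x - a‖ ^ 2 ≤ ∑ k, ‖F x k - a k‖ ^ 2 := by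
              obtain ⟨k, -, hk⟩ := Finset.exists_max_image Finset.univ (fun k => ‖F x k - a k‖)
                ⟨0, Finset.mem_univ _⟩
              have h8 : ‖F x - a‖ ≤ ‖F x k - a k‖ :=
                (pi_norm_le_iff_of_nonneg (norm_nonneg _)).2 fun j => hk j (Finset.mem_univ _)
              calc ‖F x - a‖ ^ 2 ≤ ‖F x k - a k‖ ^ 2 := pow_le_pow_left₀ (norm_nonneg _) h8 2
                _ ≤ _ := Finset.single_le_sum (f := fun k => ‖F x k - a k‖ ^ 2)
                    (fun j _ => by positivity) (Finset.mem_univ k)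
            have h9 : (r₀ / 4) ^ 2 ≤ ‖F x - a‖ ^ 2 := pow_le_pow_left₀ (by positivity) h4 2
            linarith
          have e6 : 0 < d1 a (F x) := d1_pos a (F x)
          have e7 : gr (b1 a hr) (F x) * d1 a (F x) ^ 2 / N ≤ M * d2 ^ 2 := by
            rw [div_le_iff₀ hN0]
            calc gr (b1 a hr) (F x) * d1 a (F x) ^ 2 ≤ M * d2 ^ 2 :=
                  mul_le_mul e3 (pow_le_pow_left₀ e6.le e4 2) (by positivity) hM0
              _ = M * d2 ^ 2 * 1 := (mul_one _).symm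
              _ ≤ M * d2 ^ 2 * N := mul_le_mul_of_nonneg_left (by exact_mod_cast hN)
                  (mul_nonneg hM0 (sq_nonneg _))
          have e8 : Real.exp (-psi N a (F x)) * den w F ((k0 hp hw hB μ hμ).ix x) x ≤ E₀ * D x := by
            rw [e2]
            exact mul_le_mul_of_nonneg_right e5 (hden x)
          calc gr (b1 a hr) (F x) * d1 a (F x) ^ 2 / N * (kN hp hw hB μ hμ N a).dA τ x *
                (Real.exp (-psi N a (F x)) * den w F ((kN hp hw hB μ hμ N a).ix x) x)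
              ≤ M * d2 ^ 2 * (kN hp hw hB μ hμ N a).dA τ x * (E₀ * D x) := by
                refine mul_le_mul (mul_le_mul_of_nonneg_right e7 hAx) e8
                  (mul_nonneg (Real.exp_pos _).le (hden x)) (mul_nonneg (mul_nonneg hM0 (sq_nonneg _))
                    hAx)
            _ = _ := by ring
    · by_cases hx2 : F x ∈ ball a r₀
      · refine triv ?_
        have hx3 : x ∈ O₂ := (hb hx2).resolve_left hx1
        filter_upwards [h2.mem_nhds hx3] with y hy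
        exact if_neg fun h => disjoint_left.1 hd h hy
      · refine triv ?_
        rw [mem_ball_iff_norm, not_lt] at hx2
        have h4 : (fun y => b1 a hr (F y)) =ᶠ[𝓝 x] fun _ => 0 :=
          hFc.continuousAt.eventually (b_ev_zero (b1 a hr) (show r₀ / 2 < _ by linarith))
        filter_upwards [h4] with y hy
        unfold gcut
        split_ifs
        · exact hy
        · rfl

end

end Vale.Agent.P284.H383.K9
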