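import Vale.Agent.P284.H383.K9.C

/-!
# P284 (helper383), K9: properness, separation of the components of a fibre, cut-off functions
-/

open scoped Manifold ContDiff Topology ENNReal ComplexConjugate ComplexOrder
open Filter Set Metric MeasureTheory

noncomputable section

namespace Vale.Agent.P284.H383.K9

open Vale.Agent.P272.K Vale.Agent.P284.H894.G Vale.Agent.P284.H894.W Vale.Agent.P284.H494
  Vale.Agent.P284.H10 Vale.Agent.P284.H224 Vale.Agent.P284.H672 Vale.Agent.P284.H608.K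

section
variable {n : ℕ} {X : Type} [TopologicalSpace X] [ChartedSpace (Cm n) X] {E : Type}
  [TopologicalSpace E] {p : E → X} {Γ : Type} [Group Γ] [MulAction Γ E]
  {w : Chart n X → Cm n → Matrix (Fin n) (Fin n) ℂ} {q : ℕ} {F : E → Cm q} {c : Γ → Cm q}
  [T2Space X] [CompactSpace X]

/-- `F` is proper if the periods are injective -/
theorem proper (hp : IsGalois Γ p) (hA : Per p w F c) (hi : ∀ g, c g = 0 → g = 1) (a : Cm q)
    (r : ℝ) : IsCompact (F ⁻¹' closedBall a r) := by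
  rcases isEmpty_or_nonempty E with h | h
  · have : F ⁻¹' closedBall a r = ∅ := Set.eq_empty_of_isEmpty _
    rw [this]; exact isCompact_empty
  have hT2 : T2Space E := H35.S4.t2_of_cov hp.cov
  obtain ⟨C, hC, hcov⟩ := per_compact hp hA (‖a‖ + r)
  refine hC.of_isClosed_subset (isClosed_closedBall.preimage (per_cont hp.cov hA)) fun y hy => ?_
  obtain ⟨k, hk, hky⟩ := hcov y (by
    have h1 : ‖F y - a‖ ≤ r := mem_closedBall_iff_norm.1 hy
    calc ‖F y‖ = ‖a + (F y - a)‖ := by congr 1; abel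
      _ ≤ ‖a‖ + ‖F y - a‖ := norm_add_le _ _
      _ ≤ _ := by linarith)
  rw [hi k ((mem_ker hA).1 hk), one_smul] at hky
  exact hky

/-- a neighbourhood of a fibre contains the preimage of a ball -/
theorem tube (hp : IsGalois Γ p) (hA : Per p w F c) (hi : ∀ g, c g = 0 → g = 1) (a : Cm q)
    {U : Set E} (hU : IsOpen U) (hs : F ⁻¹' {a} ⊆ U) : ∃ r > 0, F ⁻¹' ball a r ⊆ U := by
  have hFc := per_cont hp.cov hA
  have h1 : IsCompact (F ⁻¹' closedBall a 1 ∩ Uᶜ) := (proper hp hA hi a 1).inter_right hU.isClosed_compl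
  have h2 : IsCompact (F '' (F ⁻¹' closedBall a 1 ∩ Uᶜ)) := h1.image hFc
  have h3 : (F '' (F ⁻¹' closedBall a 1 ∩ Uᶜ))ᶜ ∈ 𝓝 a := by
    refine h2.isClosed.isOpen_compl.mem_nhds ?_
    rintro ⟨y, ⟨-, hy⟩, hya⟩
    exact hy (hs hya)
  obtain ⟨r, hr, hb⟩ := Metric.mem_nhds_iff.1 h3
  refine ⟨min r 1, lt_min hr one_pos, fun y hy => ?_⟩
  by_contra hyU
  have h4 : F y ∈ ball a (min r 1) := hy
  refine hb (ball_subset_ball (min_le_left _ _) h4) ⟨y, ⟨?_, hyU⟩, rfl⟩
  exact ball_subset_closedBall (ball_subset_ball (min_le_right _ _) h4)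

/-- separation of two components of a fibre -/
theorem separate (hp : IsGalois Γ p) (hA : Per p w F c) (hi : ∀ g, c g = 0 → g = 1) {y y' : E}
    (hyy : F y' = F y) (hne : ¬ Same F y y') : ∃ r > 0, ∃ O₁ O₂ : Set E, IsOpen O₁ ∧ IsOpen O₂ ∧
      Disjoint O₁ O₂ ∧ F ⁻¹' ball (F y) r ⊆ O₁ ∪ O₂ ∧ y ∈ O₁ ∧ y' ∈ O₂ := by
  have hT2 : T2Space E := H35.S4.t2_of_cov hp.cov
  have hFc := per_cont hp.cov hA
  set S : Set E := F ⁻¹' {F y} with hS
  have hSc : IsCompact S := by
    have := proper hp hA hi (F y) 0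
    rwa [closedBall_zero] at this
  have hCS : CompactSpace S := isCompact_iff_compactSpace.1 hSc
  set a : S := ⟨y, rfl⟩ with ha
  set b : S := ⟨y', hyy⟩ with hb
  have h1 : b ∉ connectedComponent a := by
    intro h
    apply hne
    show y' ∈ connectedComponentIn S y
    rw [connectedComponentIn_eq_image (show y ∈ S from rfl)]
    exact ⟨b, h, rfl⟩
  rw [connectedComponent_eq_iInter_isClopen] at h1
  simp only [mem_iInter, not_forall] at h1
  obtain ⟨⟨Z, hZ, haZ⟩, hbZ⟩ := h1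
  have hZ1 : IsCompact (Subtype.val '' Z) := hZ.1.isCompact.image continuous_subtype_val
  have hZ2 : IsCompact (Subtype.val '' Zᶜ) :=
    hZ.compl.1.isCompact.image continuous_subtype_val
  have hd : Disjoint (Subtype.val '' Z) (Subtype.val '' Zᶜ) :=
    (disjoint_image_iff Subtype.val_injective).2 disjoint_compl_right
  obtain ⟨O₁, O₂, hO₁, hO₂, h2, h3, h4⟩ := SeparatedNhds.of_isCompact_isCompact hZ1 hZ2 hd
  obtain ⟨r, hr, hb⟩ := tube hp hA hi (F y) (hO₁.union hO₂) (fun x hx => by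
    by_cases h5 : (⟨x, hx⟩ : S) ∈ Z
    · exact Or.inl (h2 ⟨_, h5, rfl⟩)
    · exact Or.inr (h3 ⟨_, h5, rfl⟩))
  exact ⟨r, hr, O₁, O₂, hO₁, hO₂, h4, hb, h2 ⟨_, haZ, rfl⟩, h3 ⟨b, hbZ, rfl⟩⟩

open Classical in
/-- the cut-off function of the union `O₁` of components -/
def gcut (F : E → Cm q) (O₁ : Set E) (χ : Cm q → ℝ) (y : E) : ℝ := if y ∈ O₁ then χ (F y) else 0

omit [T2Space X] [CompactSpace X] in
theorem gcut_loc (hFc : Continuous F) {O₁ O₂ : Set E} (h1 : IsOpen O₁) (h2 : IsOpen O₂)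
    (hd : Disjoint O₁ O₂) {a : Cm q} {r : ℝ} (hb : F ⁻¹' ball a r ⊆ O₁ ∪ O₂) {χ : Cm q → ℝ}
    (hχ : ContDiff ℝ ∞ χ) {r' : ℝ} (hr : r' < r) (h0 : ∀ t, r' < ‖t - a‖ → χ t = 0) :
    LocF F (gcut F O₁ χ) := by
  intro y
  by_cases hy : F y ∈ ball a r
  · rcases hb hy with h | h
    · refine ⟨χ, hχ.contDiffAt, ?_⟩
      filter_upwards [h1.mem_nhds h] with x hx
      exact if_pos hx
    · refine ⟨fun _ => 0, contDiffAt_const, ?_⟩
      filter_upwards [h2.mem_nhds h] with x hx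
      exact if_neg fun h3 => disjoint_left.1 hd h3 hx
  · refine ⟨fun _ => 0, contDiffAt_const, ?_⟩
    have h3 : ∀ᶠ x in 𝓝 y, r' < ‖F x - a‖ := by
      have h4 : r' < ‖F y - a‖ := by
        rw [mem_ball_iff_norm, not_lt] at hy
        linarith
      exact ((hFc.sub continuous_const).norm.continuousAt).eventually_const_lt h4
    filter_upwards [h3] with x hx
    unfold gcut
    split_ifs
    · exact h0 _ hx
    · rfl

end

end Vale.Agent.P284.H383.K9
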